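import Vale.Agent.N264X.E.Nl
import Mathlib.Analysis.Calculus.MeanValue
import Mathlib.Analysis.SpecialFunctions.ExpDeriv
import Mathlib.MeasureTheory.Integral.IntervalIntegral.FundThmCalculus

/-!
# P264: the nonlinear energy estimate relative to a background
-/

open scoped ContDiff Topology
open Set Filter MeasureTheory

noncomputable section

namespace Vale.Agent.N264X.P264Z

open Vale.Agent.P264Z

/-- `y = 1 - x m` -/
def yb (m : ℝ → ℝ → ℝ) (t x : ℝ) : ℝ := 1 - x * m t x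

/-- `x L m` -/
def ab (m : ℝ → ℝ → ℝ) (t x : ℝ) : ℝ := x * Lop 7 (m t) x

/-- the residual of the equation -/
def res (m : ℝ → ℝ → ℝ) (t x : ℝ) : ℝ := dt m t x + yb m t x ^ 2 * Lop 7 (m t) x

/-- `W = y² L u` -/
def Wf (y u : ℝ → ℝ) (x : ℝ) : ℝ := y x ^ 2 * Lop 7 u x

/-- the difference -/
def df (m mb : ℝ → ℝ → ℝ) (t x : ℝ) : ℝ := m t x - mb t x

variable {m mb y u : ℝ → ℝ → ℝ}

lemma Sm.yb (h : Sm m) : Sm (yb m) := (Sm.const 1).sub (Sm.x.mul h)
lemma Sm.ab (h : Sm m) : Sm (ab m) := Sm.x.mul (h.Lop 7)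
lemma Sm.res (h : Sm m) : Sm (res m) := h.dt.add ((h.yb.pow 2).mul (h.Lop 7))
lemma Sm.Wf (hy : Sm y) (hu : Sm u) : Sm (fun t => Wf (y t) (u t)) := (hy.pow 2).mul (hu.Lop 7)
lemma Sm.df (h : Sm m) (k : Sm mb) : Sm (df m mb) := h.sub k
lemma sm_Wf {y u : ℝ → ℝ} (hy : ContDiff ℝ ∞ y) (hu : ContDiff ℝ ∞ u) : ContDiff ℝ ∞ (Wf y u) :=
  (hy.pow 2).mul (sm_Lop 7 hu)

lemma Wf_end {y u : ℝ → ℝ} {b : ℝ} (hy : ContDiff ℝ ∞ y) (hu : ContDiff ℝ ∞ u) (h : y b = 0) :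
    Wf y u b = 0 ∧ deriv (Wf y u) b = 0 := by
  refine ⟨by simp [Wf, h], ?_⟩
  have h1 := (((sm_hasDerivAt hy b).pow 2).mul (sm_hasDerivAt (sm_Lop 7 hu) b)).deriv
  refine Eq.trans h1 ?_
  simp [h]

/-- a background with bounds -/
structure Bg (b T M ρ₂ ρ₃ : ℝ) (mb : ℝ → ℝ → ℝ) : Prop where
  sm : Sm mb
  val : ∀ t ∈ Icc 0 T, mb t b = 1 / b
  der : ∀ t ∈ Icc 0 T, deriv (mb t) b = 0
  wt : ∀ t ∈ Icc 0 T, Wt b M (yb mb t) (ab mb t)
  yt : ∀ t ∈ Icc 0 T, ∀ x ∈ Icc 0 b, (1 + x) * |dt (yb mb) t x| ≤ M * yb mb t x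
  r2 : ∀ t ∈ Icc 0 T, Dn 2 b (res mb t) ≤ ρ₂
  r3 : ∀ t ∈ Icc 0 T, Dn 3 b (res mb t) ≤ ρ₃

lemma Pr_sub (p : ℕ) (b : ℝ) {W G H : ℝ → ℝ} (hW : ContDiff ℝ ∞ W) (hG : ContDiff ℝ ∞ G)
    (hH : ContDiff ℝ ∞ H) : Pr p b W (fun x => G x - H x) = Pr p b W G - Pr p b W H := by
  unfold Pr
  have c1 : Continuous fun x => x ^ (p + 2) * W x * Lop 7 G x :=
    ((continuous_pow _).mul hW.continuous).mul (sm_Lop 7 hG).continuous
  have c2 : Continuous fun x => x ^ (p + 2) * W x * Lop 7 H x :=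
    ((continuous_pow _).mul hW.continuous).mul (sm_Lop 7 hH).continuous
  rw [Lop_sub 7 hG hH, ← intervalIntegral.integral_sub (c1.intervalIntegrable _ _)
    (c2.intervalIntegrable _ _)]
  refine intervalIntegral.integral_congr fun x _ => ?_
  simp only
  ring

/-- the derivative of the energy -/
def dEn (p : ℕ) (b : ℝ) (y u : ℝ → ℝ → ℝ) (t : ℝ) : ℝ :=
  2 * (∫ x in (0 : ℝ)..b, x ^ (p + 2) * (y t x * dt y t x) * Lop 7 (u t) x ^ 2) +
    2 * Pr p b (Wf (y t) (u t)) (dt u t)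

lemma hasDerivAt_En' (hy : Sm y) (hu : Sm u) (p : ℕ) {b : ℝ} (hb : 0 ≤ b) (t : ℝ) :
    HasDerivAt (fun s => En p b (y s) (u s)) (dEn p b y u t) t := hasDerivAt_En hy hu p hb t

/-- the basic differential inequality -/
lemma dEn_le (h2 : F2) (h3 : F3) : ∃ C : ℝ, 0 < C ∧ ∀ (p : ℕ) (b t : ℝ) (y u : ℝ → ℝ → ℝ),
    (p = 2 ∨ p = 3) → 0 < b → Sm y → Sm u → Wf (y t) (u t) b = 0 →
    deriv (Wf (y t) (u t)) b = 0 →
    dEn p b y u t ≤
      2 * (∫ x in (0 : ℝ)..b, x ^ (p + 2) * (y t x * dt y t x) * Lop 7 (u t) x ^ 2) -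
        1 / 4 * Dn p b (Wf (y t) (u t)) + C * Dn p b (fun x => dt u t x + Wf (y t) (u t) x) := by
  obtain ⟨C, hC, h3⟩ := h3
  refine ⟨16 * C, by positivity, fun p b t y u hp hb hy hu h0 h1 => ?_⟩
  have hW := sm_Wf (hy.slice t) (hu.slice t)
  have hG : ContDiff ℝ ∞ fun x => dt u t x + Wf (y t) (u t) x := (hu.dt.slice t).add hW
  have e : dt u t = fun x => (dt u t x + Wf (y t) (u t) x) - Wf (y t) (u t) x := by
    funext x; ring
  have k1 := Pr_sub p b hW hG hW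
  rw [← e] at k1
  have k2 := h2 p b _ hp hb hW h0 h1
  have k3 := (le_abs_self _).trans (h3 p b (1 / 8) _ _ hp hb (by norm_num) hW hG h0 h1)
  unfold dEn
  rw [k1]
  have : C / (1 / 8) = 8 * C := by ring
  rw [this] at k3
  linarith

lemma le_add_integral {f f' h : ℝ → ℝ} {t : ℝ} (ht : 0 ≤ t)
    (hf : ∀ s, HasDerivAt f (f' s) s) (hh : Continuous h) (hle : ∀ s ∈ Icc 0 t, f' s ≤ h s) :
    f t ≤ f 0 + ∫ s in (0 : ℝ)..t, h s := by
  have := intervalIntegral.sub_le_integral_of_hasDeriv_right_of_le ht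
    (fun s _ => (hf s).continuousAt.continuousWithinAt)
    (fun s _ => (hf s).hasDerivWithinAt) hh.continuousOn.integrableOn_Icc
    (fun s hs => hle s (Ioo_subset_Icc_self hs))
  linarith

lemma gronwall_lin {f f' : ℝ → ℝ} {t K ρ : ℝ} (ht : 0 ≤ t) (hf : ∀ s, HasDerivAt f (f' s) s)
    (hle : ∀ s ∈ Icc 0 t, f' s ≤ K * (f s + ρ)) : f t + ρ ≤ (f 0 + ρ) * Real.exp (K * t) := by
  have h1 : ∀ s, HasDerivAt (fun s => (f s + ρ) * Real.exp (-(K * s)))
      ((f' s - K * (f s + ρ)) * Real.exp (-(K * s))) s := by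
    intro s
    have := ((hf s).add_const ρ).mul ((hasDerivAt_id s).const_mul K).neg.exp
    refine this.congr_deriv ?_
    simp only [id, Pi.neg_apply]
    ring
  have h2 := le_add_integral ht h1 (h := fun _ => 0) continuous_const fun s hs =>
    mul_nonpos_of_nonpos_of_nonneg (by linarith [hle s hs]) (Real.exp_pos _).le
  simp only [mul_zero, neg_zero, Real.exp_zero, mul_one, intervalIntegral.integral_zero,
    add_zero] at h2
  have h3 := mul_le_mul_of_nonneg_right h2 (Real.exp_pos (K * t)).le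
  rw [mul_assoc, ← Real.exp_add, neg_add_cancel, Real.exp_zero, mul_one] at h3
  exact h3

/-- the equation of the difference -/
lemma df_eq {b T : ℝ} (hm : Sol 7 b T m) (hb : 0 < b) (hT : 0 < T) (hmb : Sm mb) {t x : ℝ}
    (ht : t ∈ Icc 0 T) (hx : x ∈ Icc 0 b) :
    dt (df m mb) t x + Wf (yb mb t) (df m mb t) x =
      2 * (yb mb t x * ab mb t x) * df m mb t x + Fnl (yb mb t) (ab mb t) (df m mb t) x -
        res mb t x := by
  have hs : Sm m := hm.smooth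
  have h1 : dt (df m mb) t x = dt m t x - dt mb t x := hs.dt_sub hmb t x
  have h2 : Lop 7 (df m mb t) x = Lop 7 (m t) x - Lop 7 (mb t) x :=
    congrFun (Lop_sub 7 (hs.slice t) (hmb.slice t)) x
  rw [h1, Sol_pde' hm hb hT t ht x hx]
  unfold Wf Fnl res ab
  rw [h2]
  unfold yb df
  ring

lemma df_end {b T M ρ₂ ρ₃ : ℝ} (hm : Sol 7 b T m) (h : Bg b T M ρ₂ ρ₃ mb) {t : ℝ}
    (ht : t ∈ Icc 0 T) : df m mb t b = 0 ∧ deriv (df m mb t) b = 0 := by
  have hs : Sm m := hm.smooth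
  refine ⟨by unfold df; rw [(hm.adm t ht).val, h.val t ht, sub_self], ?_⟩
  have := congrFun (deriv_sub' (hs.slice t) (h.sm.slice t)) b
  refine Eq.trans this ?_
  rw [(hm.adm t ht).der, h.der t ht, sub_self]

lemma Bg.y_end {b T M ρ₂ ρ₃ : ℝ} (h : Bg b T M ρ₂ ρ₃ mb) (hb : 0 < b) {t : ℝ}
    (ht : t ∈ Icc 0 T) : yb mb t b = 0 := by
  unfold yb; rw [h.val t ht]; field_simp; ring

lemma weight_term_le {b M t : ℝ} {p : ℕ} (hp : p = 2 ∨ p = 3) (hb : 0 < b) (hy : Sm y)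
    (hu : Sm u) (h0 : ∀ x ∈ Icc 0 b, 0 ≤ y t x)
    (h : ∀ x ∈ Icc 0 b, (1 + x) * |dt y t x| ≤ M * y t x) :
    (∫ x in (0 : ℝ)..b, x ^ (p + 2) * (y t x * dt y t x) * Lop 7 (u t) x ^ 2) ≤
      M * En 2 b (y t) (u t) := by
  unfold En
  rw [← intervalIntegral.integral_const_mul]
  refine integral_mono_Ioo hb.le
    ((((Sm.xpow (p + 2)).mul (hy.mul hy.dt)).mul ((hu.Lop 7).pow 2)).slice t).continuous
    (continuous_const.mul (cont_En 2 (hy.slice t).continuous (hu.slice t))) fun x hx => ?_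
  have hx' := Ioo_subset_Icc_self hx
  have h1 := h x hx'
  have h2 := h0 x hx'
  have h3 : x ^ (p + 2) ≤ x ^ 4 * (1 + x) := by
    have := pow_nonneg hx'.1 4
    have := pow_nonneg hx'.1 5
    have e : x ^ 4 * (1 + x) = x ^ 4 + x ^ 5 := by ring
    rw [e]
    rcases hp with rfl | rfl
    · show x ^ 4 ≤ _
      linarith
    · show x ^ 5 ≤ _
      linarith
  have h4 : x ^ (p + 2) * (y t x * dt y t x) ≤ M * (x ^ (2 + 2) * y t x ^ 2) := by
    calc _ ≤ x ^ (p + 2) * (y t x * |dt y t x|) := by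
          have := pow_nonneg hx'.1 (p + 2)
          gcongr
          exact le_abs_self _
      _ ≤ x ^ 4 * (1 + x) * (y t x * |dt y t x|) := by gcongr
      _ = x ^ 4 * y t x * ((1 + x) * |dt y t x|) := by ring
      _ ≤ x ^ 4 * y t x * (M * y t x) := by
          have := pow_nonneg hx'.1 4
          gcongr
      _ = _ := by ring
  have := mul_le_mul_of_nonneg_right h4 (sq_nonneg (Lop 7 (u t) x))
  linarith

/-- all the fixed-time inequalities -/
structure FAll : Prop where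
  f2 : F2
  f3 : F3
  f4 : F4
  f5 : F5
  f5b : F5b
  f6 : F6
  f7a : F7a
  f7b : F7b
  f8 : F8
  f9 : F9
  f10 : F10
  f11 : F11

/-- the nonlinear differential inequality -/
lemma dEn_nl (H : FAll) (M : ℝ) (hM : 1 ≤ M) : ∃ C δ : ℝ, 1 ≤ C ∧ 0 < δ ∧ δ ≤ 1 ∧
    ∀ (b T ρ₂ ρ₃ : ℝ) (mb m : ℝ → ℝ → ℝ), 0 < b → 0 < T → Bg b T M ρ₂ ρ₃ mb → Sol 7 b T m →
    ∀ t ∈ Icc 0 T, En 3 b (yb mb t) (df m mb t) ≤ δ → ∀ p : ℕ, (p = 2 ∨ p = 3) →
      dEn p b (yb mb) (df m mb) t ≤ -(1 / 8 * Dn p b (Wf (yb mb t) (df m mb t))) +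
        C * (En 2 b (yb mb t) (df m mb t) + Dn p b (res mb t)) := by
  obtain ⟨C0, hC0, h0⟩ := dEn_le H.f2 H.f3
  obtain ⟨C1, hC1, h1⟩ := Dn_lin H.f6 H.f7a M hM
  obtain ⟨C2, hC2, h2⟩ := Dn_Fnl H.f4 H.f5 H.f6 H.f7a H.f7b M hM
  refine ⟨2 * M + 4 * C0 * C1 + 4 * C0 * C2 + 2 * C0, min 1 (1 / (32 * C0 * C2)), ?_, ?_,
    min_le_left _ _, ?_⟩
  · have : 0 ≤ C0 * C1 := by positivity
    have : 0 ≤ C0 * C2 := by positivity
    linarith
  · exact lt_min one_pos (by positivity)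
  intro b T ρ₂ ρ₃ mb m hb hT hB hm t ht hE p hp
  have hs : Sm m := hm.smooth
  have hu : Sm (df m mb) := hs.df hB.sm
  have hy := hB.sm.yb
  have hw := hB.wt t ht
  obtain ⟨e0, e1⟩ := df_end hm hB ht
  obtain ⟨w0, w1⟩ := Wf_end (hy.slice t) (hu.slice t) (hB.y_end hb ht)
  have k0 := h0 p b t _ _ hp hb hy hu w0 w1
  have k1 := h1 p b _ _ _ hp hb hw (hu.slice t) e0 e1
  have k2 := h2 p b _ _ _ hp hb hw (hu.slice t) e0 e1 (hE.trans (min_le_left _ _))
  have k3 := weight_term_le hp hb hy hu (fun x hx => hw.y_nonneg hb hM hx) (hB.yt t ht)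
  have s1 : ContDiff ℝ ∞ fun x => 2 * (yb mb t x * ab mb t x) * df m mb t x :=
    (contDiff_const.mul (hw.sy.mul hw.sa)).mul (hu.slice t)
  have s2 := sm_Fnl hw.sy hw.sa (hu.slice t)
  have k4 : Dn p b (fun x => dt (df m mb) t x + Wf (yb mb t) (df m mb t) x) =
      Dn p b (fun x => (2 * (yb mb t x * ab mb t x) * df m mb t x +
        Fnl (yb mb t) (ab mb t) (df m mb t) x) - res mb t x) :=
    Dn_congr p hb.le fun x hx => df_eq hm hb hT hB.sm ht (Ioo_subset_Icc_self hx)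
  have k5 := Dn_sub_le p hb.le (s1.add s2) (hB.sm.res.slice t)
  have k6 := Dn_add_le p hb.le s1 s2
  rw [k4] at k0
  change Dn p b (Fnl _ _ _) ≤ C2 * _ * (Dn p b (Wf (yb mb t) (df m mb t)) + _) at k2
  set D := Dn p b (Wf (yb mb t) (df m mb t))
  set E2 := En 2 b (yb mb t) (df m mb t)
  set E3 := En 3 b (yb mb t) (df m mb t)
  set r := Dn p b (res mb t)
  have hD : 0 ≤ D := Dn_nonneg p hb.le _
  have hE2 : 0 ≤ E2 := En_nonneg 2 hb.le _ _
  have hE3 : 0 ≤ E3 := En_nonneg 3 hb.le _ _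
  have hr : 0 ≤ r := Dn_nonneg p hb.le _
  have q1 : E3 ≤ 1 := hE.trans (min_le_left _ _)
  have q2 : 32 * C0 * C2 * E3 ≤ 1 := by
    have := hE.trans (min_le_right _ _)
    rw [le_div_iff₀ (by positivity)] at this
    linarith
  have q3 : C0 * (C2 * E3 * (D + E2)) ≤ 1 / 32 * D + C0 * C2 * E2 := by
    have a1 := mul_le_mul_of_nonneg_right q2 hD
    have a2 := mul_le_mul_of_nonneg_right q1 (show 0 ≤ C0 * C2 * E2 by positivity)
    nlinarith
  have q4 := mul_le_mul_of_nonneg_left k5 hC0.le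
  have q5 := mul_le_mul_of_nonneg_left k6 hC0.le
  have q6 := mul_le_mul_of_nonneg_left k1 hC0.le
  have q7 := mul_le_mul_of_nonneg_left k2 hC0.le
  have r1 : 0 ≤ M * r := by positivity
  have r2 : 0 ≤ C0 * C1 * r := by positivity
  have r3 : 0 ≤ C0 * C2 * r := by positivity
  have r4 : 0 ≤ C0 * E2 := by positivity
  nlinarith

/-- **Stability relative to a background.** -/
theorem stab (H : FAll) (M : ℝ) (hM : 1 ≤ M) : ∃ C δ : ℝ, 1 ≤ C ∧ 0 < δ ∧
    ∀ (b T ρ₂ ρ₃ : ℝ) (mb m : ℝ → ℝ → ℝ), 0 < b → 0 < T → T ≤ 1 → 0 ≤ ρ₂ → 0 ≤ ρ₃ →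
    Bg b T M ρ₂ ρ₃ mb → Sol 7 b T m →
    En 2 b (yb mb 0) (df m mb 0) + En 3 b (yb mb 0) (df m mb 0) + ρ₂ + ρ₃ ≤ δ →
    ∀ t ∈ Icc 0 T,
      En 3 b (yb mb t) (df m mb t) ≤ 1 ∧
      En 2 b (yb mb t) (df m mb t) ≤ C * (En 2 b (yb mb 0) (df m mb 0) + ρ₂) ∧
      (∫ s in (0 : ℝ)..t, Dn 2 b (Wf (yb mb s) (df m mb s))) ≤
        C * (En 2 b (yb mb 0) (df m mb 0) + ρ₂) ∧
      En 3 b (yb mb t) (df m mb t) + 1 / 8 * (∫ s in (0 : ℝ)..t, Dn 3 b (Wf (yb mb s) (df m mb s)))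
        ≤ En 3 b (yb mb 0) (df m mb 0) + C * (En 2 b (yb mb 0) (df m mb 0) + ρ₂ + ρ₃) := by
  obtain ⟨C, δ, hC, hδ, hδ1, h⟩ := dEn_nl H M hM
  set k : ℝ := 2 * C + 1 with hk
  have hek := Real.exp_pos k
  have heC : 1 ≤ Real.exp C := Real.one_le_exp (by linarith)
  refine ⟨8 + 16 * C * Real.exp C, δ / (2 * Real.exp k), ?_, by positivity, ?_⟩
  · have : 0 ≤ C * Real.exp C := by positivity
    linarith
  intro b T ρ₂ ρ₃ mb m hb hT hT1 hρ₂ hρ₃ hB hm h0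
  have hs : Sm m := hm.smooth
  have hu : Sm (df m mb) := hs.df hB.sm
  have hy := hB.sm.yb
  set E2 : ℝ → ℝ := fun t => En 2 b (yb mb t) (df m mb t) with hE2
  set E3 : ℝ → ℝ := fun t => En 3 b (yb mb t) (df m mb t) with hE3
  have n2 : ∀ t, 0 ≤ E2 t := fun t => En_nonneg 2 hb.le _ _
  have n3 : ∀ t, 0 ≤ E3 t := fun t => En_nonneg 3 hb.le _ _
  have d2 : ∀ t, HasDerivAt E2 (dEn 2 b (yb mb) (df m mb) t) t :=
    fun t => hasDerivAt_En' hy hu 2 hb.le t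
  have d3 : ∀ t, HasDerivAt E3 (dEn 3 b (yb mb) (df m mb) t) t :=
    fun t => hasDerivAt_En' hy hu 3 hb.le t
  set η : ℝ := δ / (2 * Real.exp k) with hη
  have hη0 : 0 < η := by positivity
  change E2 0 + E3 0 + ρ₂ + ρ₃ ≤ η at h0
  have hBle : ∀ t ∈ Icc 0 T, 2 * η * Real.exp (k * t) ≤ δ := by
    intro t ht
    have : Real.exp (k * t) ≤ Real.exp k := Real.exp_le_exp.2 (by nlinarith [ht.1, ht.2])
    calc _ ≤ 2 * η * Real.exp k := by gcongr
      _ = δ := by rw [hη]; field_simp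
  -- the bootstrap
  have boot : ∀ t ∈ Icc 0 T, E2 t + E3 t ≤ 2 * η * Real.exp (k * t) - (ρ₂ + ρ₃) := by
    have := image_le_of_deriv_right_lt_deriv_boundary (f := fun t => E2 t + E3 t)
      (f' := fun t => dEn 2 b (yb mb) (df m mb) t + dEn 3 b (yb mb) (df m mb) t) (a := 0) (b := T)
      (fun t _ => ((d2 t).add (d3 t)).continuousAt.continuousWithinAt)
      (fun t _ => ((d2 t).add (d3 t)).hasDerivWithinAt)
      (B := fun t => 2 * η * Real.exp (k * t) - (ρ₂ + ρ₃))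
      (B' := fun t => 2 * η * (Real.exp (k * t) * k))
      (by simp only [mul_zero, Real.exp_zero]; linarith)
      (fun t => by
        have := ((((hasDerivAt_id t).const_mul k).exp).const_mul (2 * η)).sub_const (ρ₂ + ρ₃)
        simpa using this)
      (fun t ht hEq => by
        have ht' := Ico_subset_Icc_self ht
        have hE : E3 t ≤ δ := by linarith [hBle t ht', n2 t]
        have a2 := h b T ρ₂ ρ₃ mb m hb hT hB hm t ht' hE 2 (Or.inl rfl)
        have a3 := h b T ρ₂ ρ₃ mb m hb hT hB hm t ht' hE 3 (Or.inr rfl)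
        have b2 := Dn_nonneg 2 hb.le (Wf (yb mb t) (df m mb t))
        have b3 := Dn_nonneg 3 hb.le (Wf (yb mb t) (df m mb t))
        have c2 := mul_le_mul_of_nonneg_left (hB.r2 t ht') (show 0 ≤ C by linarith)
        have c3 := mul_le_mul_of_nonneg_left (hB.r3 t ht') (show 0 ≤ C by linarith)
        have hpos : 0 < 2 * η * Real.exp (k * t) := by positivity
        change _ ≤ _ + C * (E2 t + _) at a2 a3
        have e1 : C * (2 * η * Real.exp (k * t)) = C * (E2 t + E3 t + (ρ₂ + ρ₃)) := by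
          congr 1; linarith
        have : 0 ≤ C * E3 t := mul_nonneg (by linarith) (n3 t)
        have : 0 ≤ C * ρ₂ := mul_nonneg (by linarith) hρ₂
        have : 0 ≤ C * ρ₃ := mul_nonneg (by linarith) hρ₃
        have e2 : 2 * η * (Real.exp (k * t) * k) =
            2 * (C * (2 * η * Real.exp (k * t))) + 2 * η * Real.exp (k * t) := by rw [hk]; ring
        show _ + _ < _
        rw [e2, e1]
        linarith)
    exact fun t ht => this ht
  have small : ∀ t ∈ Icc 0 T, E3 t ≤ δ := fun t ht => by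
    linarith [boot t ht, hBle t ht, n2 t]
  have i2 : ∀ t ∈ Icc 0 T, dEn 2 b (yb mb) (df m mb) t ≤
      -(1 / 8 * Dn 2 b (Wf (yb mb t) (df m mb t))) + C * (E2 t + ρ₂) := fun t ht => by
    have a2 := h b T ρ₂ ρ₃ mb m hb hT hB hm t ht (small t ht) 2 (Or.inl rfl)
    have c2 := mul_le_mul_of_nonneg_left (hB.r2 t ht) (show 0 ≤ C by linarith)
    change _ ≤ _ + C * (E2 t + _) at a2
    linarith
  have i3 : ∀ t ∈ Icc 0 T, dEn 3 b (yb mb) (df m mb) t ≤
      -(1 / 8 * Dn 3 b (Wf (yb mb t) (df m mb t))) + C * (E2 t + ρ₃) := fun t ht => by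
    have a2 := h b T ρ₂ ρ₃ mb m hb hT hB hm t ht (small t ht) 3 (Or.inr rfl)
    have c2 := mul_le_mul_of_nonneg_left (hB.r3 t ht) (show 0 ≤ C by linarith)
    change _ ≤ _ + C * (E2 t + _) at a2
    linarith
  set A := E2 0 + ρ₂ with hA
  have hA0 : 0 ≤ A := add_nonneg (n2 0) hρ₂
  have g2 : ∀ t ∈ Icc 0 T, E2 t + ρ₂ ≤ A * Real.exp C := fun t ht => by
    have := gronwall_lin (K := C) (ρ := ρ₂) ht.1 d2 fun s hs => by
      have := i2 s ⟨hs.1, hs.2.trans ht.2⟩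
      have := Dn_nonneg 2 hb.le (Wf (yb mb s) (df m mb s))
      linarith
    refine this.trans (mul_le_mul_of_nonneg_left (Real.exp_le_exp.2 ?_) hA0)
    nlinarith [ht.1, ht.2]
  intro t ht
  have cW : ∀ p, Continuous fun s => Dn p b (Wf (yb mb s) (df m mb s)) :=
    fun p => (hy.Wf hu).cont_Dn p b
  have integ : ∀ (p : ℕ) (K : ℝ), ∫ s in (0 : ℝ)..t,
      (-(1 / 8 * Dn p b (Wf (yb mb s) (df m mb s))) + K) =
      -(1 / 8 * ∫ s in (0 : ℝ)..t, Dn p b (Wf (yb mb s) (df m mb s))) + t * K := by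
    intro p K
    have c : Continuous fun s => -(1 / 8 * Dn p b (Wf (yb mb s) (df m mb s))) :=
      (continuous_const.mul (cW p)).neg
    rw [int_add c continuous_const, intervalIntegral.integral_neg,
      intervalIntegral.integral_const_mul]
    simp
  have hCe : 0 ≤ C * (A * Real.exp C) := by positivity
  have j2 := le_add_integral ht.1 d2
    (h := fun s => -(1 / 8 * Dn 2 b (Wf (yb mb s) (df m mb s))) + C * (A * Real.exp C))
    ((continuous_const.mul (cW 2)).neg.add continuous_const) fun s hs => by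
      have hs' : s ∈ Icc 0 T := ⟨hs.1, hs.2.trans ht.2⟩
      have := mul_le_mul_of_nonneg_left (g2 s hs') (show 0 ≤ C by linarith)
      linarith [i2 s hs']
  have j3 := le_add_integral ht.1 d3
    (h := fun s => -(1 / 8 * Dn 3 b (Wf (yb mb s) (df m mb s))) + (C * (A * Real.exp C) + C * ρ₃))
    ((continuous_const.mul (cW 3)).neg.add continuous_const) fun s hs => by
      have hs' : s ∈ Icc 0 T := ⟨hs.1, hs.2.trans ht.2⟩
      have := mul_le_mul_of_nonneg_left (g2 s hs') (show 0 ≤ C by linarith)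
      have : 0 ≤ C * ρ₂ := mul_nonneg (by linarith) hρ₂
      linarith [i3 s hs']
  rw [integ] at j2 j3
  have ht1 : t ≤ 1 := ht.2.trans hT1
  have hCρ : 0 ≤ C * ρ₃ := mul_nonneg (by linarith) hρ₃
  have m2 := mul_le_mul_of_nonneg_right ht1 hCe
  have m3 := mul_le_mul_of_nonneg_right ht1 (add_nonneg hCe hCρ)
  have m4 : A * Real.exp C ≤ C * (A * Real.exp C) := by
    have : 0 ≤ A * Real.exp C := by positivity
    nlinarith
  have m5 : C * ρ₃ ≤ C * Real.exp C * ρ₃ := by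
    have := mul_le_mul_of_nonneg_left heC hCρ
    linarith
  have m6 : 0 ≤ C * Real.exp C * ρ₃ := by positivity
  refine ⟨(small t ht).trans hδ1, ?_, ?_, ?_⟩
  · show E2 t ≤ _ * A
    linarith [g2 t ht]
  · show _ ≤ _ * A
    linarith [n2 t]
  · show E3 t + _ ≤ E3 0 + _ * (A + ρ₃)
    linarith

end Vale.Agent.N264X.P264Z
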