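import Vale.Agent.N264X.E.Stab

/-!
# P264: the force of the linearized equation
-/

open scoped ContDiff Topology
open Set Filter MeasureTheory

noncomputable section

namespace Vale.Agent.N264X.P264Z

open Vale.Agent.P264Z

/-- the force of the linearized equation -/
def frc (y a u : ℝ → ℝ → ℝ) (t x : ℝ) : ℝ :=
  dt u t x + Wf (y t) (u t) x - 2 * (y t x * a t x) * u t x

lemma Sm.frc {y a u : ℝ → ℝ → ℝ} (hy : Sm y) (ha : Sm a) (hu : Sm u) : Sm (frc y a u) :=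
  (hu.dt.add (hy.Wf hu)).sub (((hy.mul ha).cmul 2).mul hu)

/-- the linear energy inequality modulo finitely many functionals -/
def LinIneq (M : ℝ) : Prop := ∃ (η h C : ℝ) (N : ℕ), 0 < η ∧ η < 3 / 4 ∧ 0 < h ∧ 0 ≤ C ∧
  ∀ (b ρ₂ ρ₃ : ℝ) (mb u : ℝ → ℝ → ℝ), 0 < b → 4 * (N * h) ≤ b → Bg b η M ρ₂ ρ₃ mb → Sm u →
    (∀ t, u t b = 0 ∧ deriv (u t) b = 0) →
    (1 - η / 4) * En 2 b (yb mb η) (u η) ≤ En 2 b (yb mb 0) (u 0) +
      C * (∫ t in (0 : ℝ)..η, Dn 2 b (frc (yb mb) (ab mb) u t)) +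
      C * ∑ i : Fin N, (∫ x in ((i : ℕ) * h)..(((i : ℕ) + 1) * h), x * Mop 7 (u 0) x) ^ 2

/-- continuous dependence on the initial data, after rescaling and cutting off -/
def ContCut : Prop := ∀ {b μ B τ : ℝ}, 0 < b → 0 < μ → 0 < B → 4 * B ≤ b / μ → τ ∈ Icc (0 : ℝ) 1 →
  ∀ {Y : ℝ → ℝ}, Continuous Y → ∀ {m₀ : ℝ → ℝ → ℝ}, Sol 7 b 1 m₀ → ∀ {η : ℝ}, 0 < η →
    ∃ ρ : ℝ, 0 < ρ ∧ ∀ m, Sol 7 b 1 m →
      En 2 b (fun _ => 1) (df m m₀ 0) + En 3 b (fun _ => 1) (df m m₀ 0) ≤ ρ →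
      En 2 (b / μ) Y (fun x => cut B x * (μ * df m m₀ τ (μ * x))) < η

end Vale.Agent.N264X.P264Z
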