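import Vale.Agent.N264X.E.LinB

/-!
# P264: the renormalization argument
-/

open scoped ContDiff Topology
open Set Filter MeasureTheory

noncomputable section

namespace Vale.Agent.N264X.P264Z

open Vale.Agent.P264Z

variable {σ : ℝ → ℝ} {r : ℕ}

/-- evaluation at a point of the initial slice -/
def ev0 (x : ℝ) : TS →ₗ[ℝ] ℝ where
  toFun u := u.1 0 x
  map_add' _ _ := rfl
  map_smul' _ _ := rfl

/-- linear combinations -/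
def lc (v : Fin r → TS) : (Fin r → ℝ) →ₗ[ℝ] TS := Fintype.linearCombination ℝ v

lemma lc_apply (v : Fin r → TS) (a : Fin r → ℝ) : lc v a = ∑ i, a i • v i :=
  Fintype.linearCombination_apply ℝ v a

lemma map_lc (A : TS →ₗ[ℝ] TS) (v : Fin r → TS) (a : Fin r → ℝ) :
    A (lc v a) = lc (fun i => A (v i)) a := by
  simp only [lc_apply, map_sum, map_smul]

lemma lc_bound (w : Fin r → TS) : ∃ K : ℝ, 0 ≤ K ∧ ∀ a x, 0 ≤ x → |(lc w a).1 0 x| ≤ K * ‖a‖ := by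
  have h : ∀ i, ∃ K : ℝ, 0 ≤ K ∧ ∀ x, 0 ≤ x → |ev0 x (w i)| ≤ K := fun i => by
    obtain ⟨b, -, hv⟩ := TS.van (w i) 0
    obtain ⟨K, hK, h⟩ := (TS.sm (w i)).bdd 0 0 0 b
    refine ⟨K, hK, fun x hx => ?_⟩
    rcases le_total x b with h1 | h1
    · exact h 0 ⟨le_rfl, le_rfl⟩ x ⟨hx, h1⟩
    · have : ev0 x (w i) = 0 := hv 0 x h1
      rw [this, abs_zero]; exact hK
  choose K hK h using h
  refine ⟨∑ i, K i, Finset.sum_nonneg fun i _ => hK i, fun a x hx => ?_⟩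
  have e : (lc w a).1 0 x = ∑ i, a i * ev0 x (w i) := by
    show ev0 x (lc w a) = _
    simp only [lc_apply, map_sum, map_smul, smul_eq_mul]
  rw [e, Finset.sum_mul]
  refine (Finset.abs_sum_le_sum_abs _ _).trans (Finset.sum_le_sum fun i _ => ?_)
  rw [abs_mul, mul_comm]
  exact mul_le_mul (h i x hx) (norm_le_pi_norm a i) (abs_nonneg _) (hK i)

lemma init_bounds (v : Fin r → TS) : ∃ B K : ℝ, 1 ≤ B ∧ 0 ≤ K ∧ ∀ a,
    (∀ x, B ≤ x → (lc v a).1 0 x = 0) ∧ (∀ x, 0 ≤ x → |x * (lc v a).1 0 x| ≤ K * ‖a‖) ∧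
    ∀ b, B ≤ b → ∀ p : ℕ, (p = 2 ∨ p = 3) → En p b (fun _ => 1) ((lc v a).1 0) ≤ K * ‖a‖ ^ 2 := by
  choose b hb hv using fun i => TS.van (v i) 0
  obtain ⟨K1, hK1, h1⟩ := lc_bound fun i => opMul (fun _ x => x) Sm.x (v i)
  obtain ⟨K2, hK2, h2⟩ := lc_bound fun i => opL (v i)
  set B := 1 + ∑ i, b i with hB
  have B1 : 1 ≤ B := by linarith [Finset.sum_nonneg fun i (_ : i ∈ Finset.univ) => hb i]
  have z : ∀ a x, B ≤ x → (lc v a).1 0 x = 0 := fun a x hx => by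
    show ev0 x (lc v a) = 0
    simp only [lc_apply, map_sum, map_smul, smul_eq_mul]
    refine Finset.sum_eq_zero fun i _ => ?_
    have : ev0 x (v i) = 0 := hv i 0 x (by
      linarith [Finset.single_le_sum (fun i (_ : i ∈ Finset.univ) => hb i) (Finset.mem_univ i)])
    rw [this, mul_zero]
  have hp : 0 ≤ B * (B ^ 5 * K2 ^ 2) := by positivity
  refine ⟨B, K1 + B * (B ^ 5 * K2 ^ 2), B1, by positivity, fun a => ⟨z a, fun x hx => ?_,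
    fun c hc p hp => ?_⟩⟩
  · have := h1 a x hx
    rw [← map_lc] at this
    exact this.trans (mul_le_mul_of_nonneg_right (by linarith) (norm_nonneg _))
  · have su := (TS.sm (lc v a)).slice 0
    have z2 : ∀ x, B ≤ x → x ^ (p + 2) * (1 : ℝ) ^ 2 * Lop 7 ((lc v a).1 0) x ^ 2 = 0 :=
      fun x hx => by rw [van_Lop su (z a) x hx]; ring
    have e : En p c (fun _ => 1) ((lc v a).1 0) = En p B (fun _ => 1) ((lc v a).1 0) := by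
      unfold En
      rw [← int_Ioi (by linarith) fun x hx => z2 x (hc.trans hx), ← int_Ioi (by linarith) z2]
    have k : En p B (fun _ => 1) ((lc v a).1 0) ≤ ∫ _ in (0 : ℝ)..B, B ^ 5 * K2 ^ 2 * ‖a‖ ^ 2 := by
      refine integral_mono_Ioo (by linarith) (cont_En p continuous_const su) continuous_const
        fun x hx => ?_
      have a1 := h2 a x hx.1.le
      rw [← map_lc] at a1
      have a2 : Lop 7 ((lc v a).1 0) x ^ 2 ≤ (K2 * ‖a‖) ^ 2 := sq_le_sq' (abs_le.1 a1).1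
        (abs_le.1 a1).2
      have a3 : x ^ (p + 2) ≤ B ^ 5 := (pow_le_pow_left₀ hx.1.le hx.2.le _).trans
        (pow_le_pow_right₀ B1 (by omega))
      calc _ = x ^ (p + 2) * Lop 7 ((lc v a).1 0) x ^ 2 := by ring
        _ ≤ B ^ 5 * (K2 * ‖a‖) ^ 2 := mul_le_mul a3 a2 (sq_nonneg _) (by positivity)
        _ = _ := by ring
    rw [intervalIntegral.integral_const, smul_eq_mul, sub_zero] at k
    rw [e]
    refine k.trans ?_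
    have := mul_nonneg hK1 (sq_nonneg ‖a‖)
    nlinarith

lemma adm_init {R M ρ₂ ρ₃ : ℝ} {mb : ℝ → ℝ → ℝ} (hR : 0 < R) (hM : 1 ≤ M)
    (hB : Bg (4 * R) 0 M ρ₂ ρ₃ mb) {f : ℝ → ℝ} (hf : ContDiff ℝ ∞ f) (h0 : ∀ x, R ≤ x → f x = 0)
    (h1 : ∀ x, 0 ≤ x → |x * f x| < 1 / (2 * M)) : Adm (4 * R) (fun x => mb 0 x + f x) := by
  have t0 : (0 : ℝ) ∈ Icc (0 : ℝ) 0 := ⟨le_rfl, le_rfl⟩
  have hb : 0 < 4 * R := by linarith
  refine ⟨fun x hx hxb => ?_, ?_, ?_⟩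
  · have a1 := ((hB.wt 0 t0).y x ⟨hx, hxb.le⟩).1
    unfold yb at a1
    rcases le_total x R with h | h
    · have a2 := half_le_vw hb (show x ≤ 4 * R / 2 by linarith)
      have a3 : 1 / (2 * M) ≤ vw (4 * R) x / M := by
        rw [← div_div]; exact div_le_div_of_nonneg_right a2 (by linarith)
      linarith [(abs_lt.1 (h1 x hx)).2]
    · have a2 : 0 < vw (4 * R) x := by
        unfold vw
        have : x / (4 * R) < 1 := (div_lt_one hb).2 hxb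
        linarith
      have a3 : 0 < vw (4 * R) x / M := div_pos a2 (by linarith)
      rw [h0 x h]; linarith
  · show mb 0 (4 * R) + f (4 * R) = _
    rw [h0 _ (by linarith), hB.val 0 t0, add_zero]
  · rw [deriv_add' (hB.sm.slice 0) hf]
    show deriv (mb 0) (4 * R) + deriv f (4 * R) = 0
    rw [van_deriv hf h0 _ (by linarith), hB.der 0 t0, add_zero]

lemma eta_mem {l : ℝ} (l1 : 1 / 2 < l) (l2 : l < 1) : 0 < 1 - l ^ 2 ∧ 1 - l ^ 2 < 3 / 4 :=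
  ⟨by nlinarith, by nlinarith⟩

lemma tau_mem {μ : ℝ} (p0 : 0 < μ) (p1 : μ ≤ 1) : 1 - μ ^ 2 + μ ^ 2 * 0 ∈ Icc (0 : ℝ) 1 :=
  ⟨by nlinarith, by nlinarith⟩

lemma sol_k {R l : ℝ} {m : ℝ → ℝ → ℝ} (hm : Sol 7 (4 * R) 1 m) (l1 : 1 / 2 < l) (l2 : l < 1)
    (k : ℕ) : Sol 7 (4 * (R / l ^ k)) (1 - l ^ 2) (rs (l ^ k) m) := by
  rw [← mul_div_assoc]
  exact Sol_rescale hm (by positivity) (pow_le_one₀ (by linarith) l2.le) (by nlinarith)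

lemma chain_alg {M C δs δ C₀ Γ₀ Γ₁ ε R s Q e : ℝ} (hM : 1 ≤ M) (hC : 1 ≤ C) (hΓ₀ : 0 ≤ Γ₀)
    (hΓ₁ : 0 < Γ₁) (hε : 0 < ε) (e1 : (Γ₀ + Γ₁ + C₀ ^ 2 + 2) * ε ^ 2 ≤ δs)
    (e2 : C * (Γ₀ + Γ₁ + C₀ ^ 2 + 2) * (C₀ ^ 2 + 2) * ε ^ 2 ≤ δ ^ 2 / 2)
    (R1 : 2 ≤ R) (R2 : 2 * (Γ₀ + Γ₁) ≤ R) (R3 : 2 * M ≤ ε ^ 2 * R)
    (R4 : C * (Γ₀ + Γ₁ + C₀ ^ 2 + 2) ≤ δ ^ 2 / 2 * R) (s0 : 0 < s) (p3 : s ≤ 1) (q0 : R ≤ Q)
    (q1 : 1 / Q ≤ s / R) (h2 : e ≤ (C₀ * ε) ^ 2 * s) :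
    e + 2 * ((Γ₀ + Γ₁ * (1 - s)) * ε ^ 2) / Q + 2 * M / Q ^ 2 ≤ (C₀ ^ 2 + 2) * ε ^ 2 * s ∧
    (C₀ ^ 2 + 2) * ε ^ 2 * s + (Γ₀ + Γ₁ * (1 - s)) * ε ^ 2 ≤ δs ∧
    C * ((Γ₀ + Γ₁ * (1 - s)) * ε ^ 2 + (C₀ ^ 2 + 2) * ε ^ 2 * s) *
      ((C₀ ^ 2 + 2) * ε ^ 2 * s + 1 / Q) ≤ (δ * ε) ^ 2 * s := by
  have ε2 : 0 < ε ^ 2 := by positivity
  have R0 : 0 < R := by linarith
  have Q0 : 0 < Q := by linarith
  have E0 : 0 ≤ (Γ₀ + Γ₁ * (1 - s)) * ε ^ 2 :=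
    mul_nonneg (add_nonneg hΓ₀ (mul_nonneg hΓ₁.le (by linarith))) ε2.le
  have E1 : (Γ₀ + Γ₁ * (1 - s)) * ε ^ 2 ≤ (Γ₀ + Γ₁) * ε ^ 2 :=
    mul_le_mul_of_nonneg_right (by nlinarith) ε2.le
  have A1 : (C₀ ^ 2 + 2) * ε ^ 2 * s ≤ (C₀ ^ 2 + 2) * ε ^ 2 :=
    mul_le_of_le_one_right (by positivity) p3
  have w1 : 2 * ((Γ₀ + Γ₁ * (1 - s)) * ε ^ 2) / Q ≤ ε ^ 2 * s := by
    have := mul_le_mul_of_nonneg_right R2 ε2.le
    calc _ = 2 * ((Γ₀ + Γ₁ * (1 - s)) * ε ^ 2) * (1 / Q) := by ring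
      _ ≤ R * ε ^ 2 * (s / R) := mul_le_mul (by linarith) q1 (by positivity) (by positivity)
      _ = _ := by field_simp
  have w2 : 2 * M / Q ^ 2 ≤ ε ^ 2 * s := by
    calc _ ≤ 2 * M / Q := div_le_div_of_nonneg_left (by linarith) Q0 (by nlinarith)
      _ = 2 * M * (1 / Q) := by ring
      _ ≤ ε ^ 2 * R * (s / R) := mul_le_mul R3 q1 (by positivity) (by positivity)
      _ = _ := by field_simp
  have w3 : (Γ₀ + Γ₁ * (1 - s)) * ε ^ 2 + (C₀ ^ 2 + 2) * ε ^ 2 * s ≤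
      (Γ₀ + Γ₁ + C₀ ^ 2 + 2) * ε ^ 2 := by linarith
  refine ⟨by linarith, by linarith, ?_⟩
  have w4 : C * (Γ₀ + Γ₁ + C₀ ^ 2 + 2) * (s / R) ≤ δ ^ 2 / 2 * s := by
    calc _ ≤ δ ^ 2 / 2 * R * (s / R) := mul_le_mul_of_nonneg_right R4 (by positivity)
      _ = _ := by field_simp
  have w5 := mul_le_mul_of_nonneg_right e2 s0.le
  calc _ ≤ C * ((Γ₀ + Γ₁ + C₀ ^ 2 + 2) * ε ^ 2) * ((C₀ ^ 2 + 2) * ε ^ 2 * s + s / R) := by
        gcongr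
    _ = ε ^ 2 * (C * (Γ₀ + Γ₁ + C₀ ^ 2 + 2) * (C₀ ^ 2 + 2) * ε ^ 2 * s +
        C * (Γ₀ + Γ₁ + C₀ ^ 2 + 2) * (s / R)) := by ring
    _ ≤ ε ^ 2 * (δ ^ 2 / 2 * s + δ ^ 2 / 2 * s) := by gcongr
    _ = _ := by ring

/-- the chain of steps -/
lemma chain {M C δs δ l ϑ C₀ Γ₀ Γ₁ ε R : ℝ} (hP : StepP σ M C δs) (hM : 1 ≤ M) (hC : 1 ≤ C)
    (l1 : 1 / 2 < l) (l2 : l < 1) (l3 : l ≤ ϑ ^ 2) (ϑ0 : 0 < ϑ) (ϑ1 : ϑ < 1) (hΓ₀ : 0 ≤ Γ₀)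
    (hΓ₁ : Γ₁ * (1 - ϑ ^ 2) = C * (C₀ ^ 2 + 2)) (hε : 0 < ε)
    (e1 : (Γ₀ + Γ₁ + C₀ ^ 2 + 2) * ε ^ 2 ≤ δs)
    (e2 : C * (Γ₀ + Γ₁ + C₀ ^ 2 + 2) * (C₀ ^ 2 + 2) * ε ^ 2 ≤ δ ^ 2 / 2)
    (R1 : 2 ≤ R) (R2 : 2 * (Γ₀ + Γ₁) ≤ R) (R3 : 2 * M ≤ ε ^ 2 * R)
    (R4 : C * (Γ₀ + Γ₁ + C₀ ^ 2 + 2) ≤ δ ^ 2 / 2 * R)
    {m : ℝ → ℝ → ℝ} (hm : Sol 7 (4 * R) 1 m)
    (h0 : En 3 (4 * R) (yb (bg σ R) 0) (df m (bg σ R) 0) ≤ Γ₀ * ε ^ 2) (k : ℕ)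
    (h : ∀ j ≤ k, En 2 (4 * (R / l ^ j)) (yb (bg σ (R / l ^ j)) 0)
      (xc σ (R / l ^ j) (rs (l ^ j) m) 0) ≤ (C₀ * ε * ϑ ^ j) ^ 2) :
    En 3 (4 * (R / l ^ k)) (yb (bg σ (R / l ^ k)) 0) (df (rs (l ^ k) m) (bg σ (R / l ^ k)) 0) ≤
      (Γ₀ + Γ₁) * ε ^ 2 ∧
    (∫ t in (0 : ℝ)..(1 - l ^ 2), Dn 2 (4 * (R / l ^ k)) (frc (yb (bg σ (R / l ^ k)))
      (ab (bg σ (R / l ^ k))) (xc σ (R / l ^ k) (rs (l ^ k) m)) t)) ≤ (δ * ε * ϑ ^ k) ^ 2 := by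
  have l0 : 0 < l := by linarith
  have R0 : 0 < R := by linarith
  have ϑ2 : ϑ ^ 2 < 1 := pow_lt_one₀ ϑ0.le ϑ1 (by norm_num)
  have hΓ₁' : 0 < Γ₁ := by
    by_contra hc
    have : 0 < C * (C₀ ^ 2 + 2) := by positivity
    nlinarith [not_lt.1 hc]
  have ε2 : 0 < ε ^ 2 := by positivity
  have one : ∀ j : ℕ, En 2 (4 * (R / l ^ j)) (yb (bg σ (R / l ^ j)) 0)
      (xc σ (R / l ^ j) (rs (l ^ j) m) 0) ≤ (C₀ * ε * ϑ ^ j) ^ 2 →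
      En 3 (4 * (R / l ^ j)) (yb (bg σ (R / l ^ j)) 0) (df (rs (l ^ j) m) (bg σ (R / l ^ j)) 0) ≤
        (Γ₀ + Γ₁ * (1 - (ϑ ^ 2) ^ j)) * ε ^ 2 →
      En 3 (4 * (R / l ^ (j + 1))) (yb (bg σ (R / l ^ (j + 1))) 0)
        (df (rs (l ^ (j + 1)) m) (bg σ (R / l ^ (j + 1))) 0) ≤
        (Γ₀ + Γ₁ * (1 - (ϑ ^ 2) ^ (j + 1))) * ε ^ 2 ∧
      (∫ t in (0 : ℝ)..(1 - l ^ 2), Dn 2 (4 * (R / l ^ j)) (frc (yb (bg σ (R / l ^ j)))
        (ab (bg σ (R / l ^ j))) (xc σ (R / l ^ j) (rs (l ^ j) m)) t)) ≤ (δ * ε * ϑ ^ j) ^ 2 := by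
    intro j h2 h3
    have p0 : 0 < l ^ j := by positivity
    have p1 : l ^ j ≤ 1 := pow_le_one₀ l0.le l2.le
    have p2 : l ^ j ≤ (ϑ ^ 2) ^ j := pow_le_pow_left₀ l0.le l3 j
    have p3 : (ϑ ^ 2) ^ j ≤ 1 := pow_le_one₀ (by positivity) ϑ2.le
    have p4 : (ϑ ^ j) ^ 2 = (ϑ ^ 2) ^ j := by rw [← pow_mul, ← pow_mul, mul_comm]
    have q0 : R ≤ R / l ^ j := le_div_self R0.le p0 p1
    have q1 : 1 / (R / l ^ j) ≤ (ϑ ^ 2) ^ j / R := by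
      rw [one_div_div]; exact div_le_div_of_nonneg_right p2 R0.le
    rw [mul_pow, p4] at h2
    rw [mul_pow (δ * ε), p4, pow_succ (ϑ ^ 2)]
    have hs := sol_k hm l1 l2 j
    have tr := En_trans 3 σ (R / l ^ j) l1.le (df (rs (l ^ j) m) (bg σ (R / l ^ j)) (1 - l ^ 2))
    rw [← df_step σ _ _ l1.le, div_div, ← pow_succ] at tr
    rw [mul_left_cancel₀ (by positivity) tr]
    obtain ⟨w1, w2, w3⟩ := chain_alg hM hC hΓ₀ hΓ₁' hε e1 e2 R1 R2 R3 R4 (p0.trans_le p2) p3 q0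
      q1 h2
    obtain ⟨k1, k2⟩ := hP _ _ _ _ _ (R1.trans q0) (eta_mem l1 l2).1 (eta_mem l1 l2).2 hs h3 w1 w2
    refine ⟨k1.trans (le_of_eq ?_), k2.trans w3⟩
    linear_combination (-(ε ^ 2 * (ϑ ^ 2) ^ j)) * hΓ₁
  have inv : ∀ j ≤ k, En 3 (4 * (R / l ^ j)) (yb (bg σ (R / l ^ j)) 0)
      (df (rs (l ^ j) m) (bg σ (R / l ^ j)) 0) ≤ (Γ₀ + Γ₁ * (1 - (ϑ ^ 2) ^ j)) * ε ^ 2 := by
    intro j
    induction j with
    | zero => intro _; simpa [rs_one] using h0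
    | succ j ih => exact fun hj => (one j (h j (by omega)) (ih (by omega))).1
  refine ⟨(inv k le_rfl).trans (mul_le_mul_of_nonneg_right ?_ ε2.le),
    (one k (h k le_rfl) (inv k le_rfl)).2⟩
  have : 0 ≤ (ϑ ^ 2) ^ k := by positivity
  nlinarith

/-- the solution cannot stay close to the self-similar solution at all scales -/
lemma far (H : FAll) {M : ℝ} (hM : 1 ≤ M)
    (hB : ∀ R T : ℝ, 1 ≤ R → T < 3 / 4 → Bg (4 * R) T M (M / R ^ 3) (M / R ^ 2) (bg σ R)) :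
    ∃ C : ℝ, 0 < C ∧ ∀ (l R E x₀ : ℝ) (m : ℝ → ℝ → ℝ), 1 / 2 < l → l < 1 → 1 ≤ R → 0 ≤ x₀ →
      x₀ ≤ R → Sol 7 (4 * R) 1 m → (∀ k : ℕ, En 3 (4 * (R / l ^ k)) (yb (bg σ (R / l ^ k)) 0)
        (df (rs (l ^ k) m) (bg σ (R / l ^ k)) 0) ≤ E) → (x₀ * σ x₀) ^ 2 ≤ C * E := by
  obtain ⟨C5, hC5, h5⟩ := H.f5
  refine ⟨C5 * M ^ 2, by positivity, fun l R E x₀ m l1 l2 R1 x0 x1 hm h => ?_⟩
  have l0 : 0 < l := by linarith
  have hs : Sm m := hm.smooth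
  obtain ⟨K, hK, hb⟩ := hs.bdd 0 1 0 (4 * R)
  have key : ∀ k : ℕ, (x₀ * (rs (l ^ k) m 0 x₀ - σ x₀)) ^ 2 ≤ C5 * M ^ 2 * E := fun k => by
    have p0 : 0 < l ^ k := by positivity
    have p1 : l ^ k ≤ 1 := pow_le_one₀ l0.le l2.le
    have q0 : R ≤ R / l ^ k := le_div_self (by linarith) p0 p1
    have b0 : 0 < 4 * (R / l ^ k) := by linarith
    have B := hB (R / l ^ k) (1 - l ^ 2) (by linarith) (eta_mem l1 l2).2
    have t0 : (0 : ℝ) ∈ Icc 0 (1 - l ^ 2) := ⟨le_rfl, (eta_mem l1 l2).1.le⟩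
    obtain ⟨e0, e1⟩ := df_end (sol_k hm l1 l2 k) B t0
    have su := ((hs.rs (l ^ k)).df B.sm).slice 0
    have a1 := (h5 _ _ b0 su e0 e1 x₀ ⟨x0, by linarith⟩).1
    have a2 := (B.wt 0 t0).En_v b0 hM su 3
    have a3 : vw (4 * (R / l ^ k)) x₀ ^ 2 ≤ 1 :=
      pow_le_one₀ (vw_nonneg b0 (by linarith)) (vw_le_one b0 x0)
    have a4 : df (rs (l ^ k) m) (bg σ (R / l ^ k)) 0 x₀ = rs (l ^ k) m 0 x₀ - σ x₀ := by
      unfold df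
      rw [bg_eq σ (by linarith) (by linarith), mss_zero]
    rw [a4] at a1
    refine a1.trans ?_
    calc _ ≤ C5 * 1 * (M ^ 2 * E) := by
          refine mul_le_mul (by gcongr) (a2.trans ?_) (En_nonneg 3 b0.le _ _) (by positivity)
          exact mul_le_mul_of_nonneg_left (h k) (by positivity)
      _ = _ := by ring
  have lim0 : Tendsto (fun k : ℕ => rs (l ^ k) m 0 x₀) atTop (𝓝 0) := by
    have l3 : Tendsto (fun k : ℕ => l ^ k * K) atTop (𝓝 0) := by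
      simpa using (tendsto_pow_atTop_nhds_zero_of_lt_one l0.le l2).mul_const K
    refine squeeze_zero_norm (fun k => ?_) l3
    have p0 : 0 < l ^ k := by positivity
    have p1 : l ^ k ≤ 1 := pow_le_one₀ l0.le l2.le
    unfold rs
    rw [Real.norm_eq_abs, abs_mul, abs_of_pos p0]
    refine mul_le_mul_of_nonneg_left (hb _ (tau_mem p0 p1) _
      ⟨by positivity, by nlinarith⟩) p0.le
  have lim1 := ((lim0.sub_const (σ x₀)).const_mul x₀).pow 2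
  have := le_of_tendsto' lim1 key
  calc _ = (x₀ * (0 - σ x₀)) ^ 2 := by ring
    _ ≤ _ := this

lemma ev_small (c d : ℝ) (hd : 0 < d) (n : ℕ) (hn : n ≠ 0) :
    ∀ᶠ ε in 𝓝[>] (0 : ℝ), c * ε ^ n < d := by
  have h : Continuous fun ε : ℝ => c * ε ^ n := continuous_const.mul (continuous_pow n)
  refine nhdsWithin_le_nhds (h.continuousAt.eventually_lt continuousAt_const ?_)
  simpa [hn] using hd

/-- **The one-dimensional theorem from the blocks.** -/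
theorem noGlobal_aux (H : FAll) (hσ : Shrinker 7 σ) {M : ℝ} (hM : 1 ≤ M)
    (hB : ∀ R T : ℝ, 1 ≤ R → T < 3 / 4 → Bg (4 * R) T M (M / R ^ 3) (M / R ^ 2) (bg σ R))
    (hS : ShootP hσ.smooth) (hC : ContCut) : NoGlobal 7 := by
  by_contra hNG
  obtain ⟨l, ϑ, l0, r, v, C₀, δ, l1, l2, l3, ϑ0, ϑ1, hC₀, hδ, hS⟩ := hS
  obtain ⟨C, δs, hC1, hδs, hP⟩ := step H hσ hM hB
  obtain ⟨Cf, hCf, hf⟩ := far H hM hB
  obtain ⟨B, K, B1, K0, hv⟩ := init_bounds v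
  obtain ⟨x₀, x0, hx₀⟩ := hσ.ne
  have ϑ2 : 0 < 1 - ϑ ^ 2 := by nlinarith
  set Γ₀ := M ^ 2 * K with hΓ₀
  set Γ₁ := C * (C₀ ^ 2 + 2) / (1 - ϑ ^ 2) with hΓ₁
  have Γ0 : 0 ≤ Γ₀ := by positivity
  have Γ1 : Γ₁ * (1 - ϑ ^ 2) = C * (C₀ ^ 2 + 2) := div_mul_cancel₀ _ ϑ2.ne'
  obtain ⟨ε, e1, e2, e3, e4, hε⟩ := ((ev_small (Γ₀ + Γ₁ + C₀ ^ 2 + 2) δs hδs 2 (by norm_num)).and
    ((ev_small (C * (Γ₀ + Γ₁ + C₀ ^ 2 + 2) * (C₀ ^ 2 + 2)) (δ ^ 2 / 2) (by positivity) 2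
      (by norm_num)).and ((ev_small (Cf * (Γ₀ + Γ₁)) ((x₀ * σ x₀) ^ 2) (by positivity) 2
      (by norm_num)).and ((ev_small K (1 / (2 * M)) (by positivity) 1 (by norm_num)).and
      self_mem_nhdsWithin)))).exists
  replace hε : 0 < ε := hε
  obtain ⟨R, R1, R2, R3, R4, R5, R6⟩ := ((eventually_ge_atTop 2).and
    ((eventually_ge_atTop (2 * (Γ₀ + Γ₁))).and ((eventually_ge_atTop (2 * M / ε ^ 2)).and
    ((eventually_ge_atTop (C * (Γ₀ + Γ₁ + C₀ ^ 2 + 2) / (δ ^ 2 / 2))).and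
    ((eventually_ge_atTop (2 * B)).and (eventually_ge_atTop x₀)))))).exists
  rw [div_le_iff₀' (by positivity)] at R3 R4
  have R0 : 0 < R := by linarith
  have hb : 0 < 4 * R := by linarith
  have B0 := hB R 0 (by linarith) (by norm_num)
  have nε : ∀ a : Fin r → ℝ, ‖ε • a‖ = ε * ‖a‖ := fun a => by
    rw [norm_smul, Real.norm_eq_abs, abs_of_pos hε]
  have ex : ∀ a : Fin r → ℝ, ∃ m, Sm m ∧ (‖a‖ ≤ 1 → Sol 7 (4 * R) 1 m ∧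
      ∀ x ∈ Icc 0 (4 * R), m 0 x = bg σ R 0 x + (lc v (ε • a)).1 0 x) := fun a => by
    by_cases ha : ‖a‖ ≤ 1
    swap
    · exact ⟨fun _ _ => 0, Sm.const 0, fun h => absurd h ha⟩
    have sf := (TS.sm (lc v (ε • a))).slice 0
    by_contra hc
    refine hNG ⟨4 * R, _, hb, (B0.sm.slice 0).add sf, adm_init R0 hM B0 sf
      (fun x hx => (hv _).1 x (by linarith)) fun x hx => ((hv _).2.1 x hx).trans_lt ?_, ?_⟩
    · rw [nε]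
      have : K * (ε * ‖a‖) ≤ K * ε ^ 1 := by
        rw [pow_one]; exact mul_le_mul_of_nonneg_left (mul_le_of_le_one_right hε.le ha) K0
      linarith
    · rintro ⟨m, h1, h2⟩
      exact hc ⟨m, h1.smooth, fun _ => ⟨h1, h2⟩⟩
  choose m hsm hm using ex
  have Rk : ∀ k : ℕ, 0 < R / l ^ k := fun k => by positivity
  set X : ℕ → (Fin r → ℝ) → TS := fun k a => ⟨xc σ (R / l ^ k) (rs (l ^ k) (m a)),
    sm_xc hσ.smooth _ ((hsm a).rs _), R / l ^ k, fun t x hx => xc_zero σ (Rk k) hx _ t⟩ with hX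
  have eX : ∀ k a, eF hσ.smooth (X k a) (X k a) = En 2 (4 * (R / l ^ k))
      (yb (bg σ (R / l ^ k)) 0) (xc σ (R / l ^ k) (rs (l ^ k) (m a)) 0) := fun k a =>
    eF_eq hσ.smooth (X k a) (Rk k) fun x hx => xc_zero σ (Rk k) hx _ 0
  have i0 : ∀ a, ‖a‖ ≤ 1 → En 3 (4 * R) (yb (bg σ R) 0) (df (m a) (bg σ R) 0) ≤ Γ₀ * ε ^ 2 := by
    intro a ha
    have sf := (TS.sm (lc v (ε • a))).slice 0
    have hw := B0.wt 0 ⟨le_rfl, le_rfl⟩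
    rw [En_congr 3 hb.le (fun _ _ => rfl) (g := (lc v (ε • a)).1 0) fun x hx => by
      unfold df; rw [(hm a ha).2 x (Ioo_subset_Icc_self hx)]; ring]
    refine (En_le_of_weight 3 (M := M ^ 2) (z := fun _ => 1) hb.le hw.sy.continuous
      continuous_const sf fun x hx => ?_).trans ?_
    · have := (hw.tby hb hM (Ioo_subset_Icc_self hx)).1
      rw [one_pow, mul_one]
      exact sq_le_sq' (abs_le.1 this).1 (abs_le.1 this).2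
    · rw [hΓ₀, mul_assoc]
      refine mul_le_mul_of_nonneg_left (((hv _).2.2 _ (by linarith) 3 (Or.inr rfl)).trans ?_)
        (by positivity)
      rw [nε]
      refine mul_le_mul_of_nonneg_left (pow_le_pow_left₀ (by positivity) ?_ 2) K0
      exact mul_le_of_le_one_right hε.le ha
  have ch := fun a ha k h => chain (δ := δ) (C₀ := C₀) hP hM hC1 l1 l2 l3 ϑ0 ϑ1 Γ0 Γ1 hε e1.le
    e2.le R1 R2 R3 R4 (hm a ha).1 (i0 a ha) k h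
  refine (hS ε X hε (fun a ha => ?_) (fun k a _ => ?_) (fun k a₀ ha₀ η hη => ?_)
    (fun k a ha h => ?_)).elim fun a ⟨ha, hk⟩ => ?_
  · refine eF_zero _ _ fun x hx => ?_
    rw [← lc_apply, ← map_smul]
    show xc σ (R / l ^ 0) (rs (l ^ 0) (m a)) 0 x - (lc v (ε • a)).1 0 x = 0
    rw [pow_zero, div_one, rs_one]
    rcases le_total x (R / 2) with h | h
    · unfold xc df
      rw [cut_one (by linarith) h, (hm a ha).2 x ⟨hx, by linarith⟩]; ring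
    · rcases le_total x R with h' | h'
      · unfold xc df
        rw [(hm a ha).2 x ⟨hx, by linarith⟩, (hv _).1 x (by linarith)]; ring
      · rw [xc_zero σ R0 h', (hv _).1 x (by linarith), sub_zero]
  · refine eF_zero _ _ fun x _ => ?_
    show xc σ (R / l ^ (k + 1)) (rs (l ^ (k + 1)) (m a)) 0 x -
      l * xc σ (R / l ^ k) (rs (l ^ k) (m a)) (1 - l ^ 2) (l * x) = 0
    rw [← xc_step σ _ _ l1.le, div_div, ← pow_succ, sub_self]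
  · have p0 : 0 < l ^ k := by positivity
    have p1 : l ^ k ≤ 1 := pow_le_one₀ l0.le l2.le
    have hq : 4 * (R / l ^ k / 2) ≤ 4 * R / l ^ k := by
      rw [mul_div_assoc]; linarith [Rk k]
    obtain ⟨ρ, hρ, hc⟩ := hC (τ := 1 - (l ^ k) ^ 2 + (l ^ k) ^ 2 * 0) hb p0
      (half_pos (Rk k)) hq (tau_mem p0 p1)
      ((sm_bg hσ.smooth (R / l ^ k)).yb.slice 0).continuous (hm a₀ ha₀).1 hη
    obtain ⟨κ, k1, k0⟩ := ((ev_small (2 * K * ε ^ 2) ρ hρ 2 (by norm_num)).and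
      self_mem_nhdsWithin).exists
    refine ⟨κ, k0, fun a ha hd => ?_⟩
    have e : ∀ p, En p (4 * R) (fun _ => 1) (df (m a) (m a₀) 0) =
        En p (4 * R) (fun _ => 1) ((lc v (ε • (a - a₀))).1 0) := fun p =>
      En_congr p hb.le (fun _ _ => rfl) fun x hx => by
        unfold df
        rw [(hm a ha).2 x (Ioo_subset_Icc_self hx), (hm a₀ ha₀).2 x (Ioo_subset_Icc_self hx),
          smul_sub, map_sub]
        show _ = (lc v (ε • a)).1 0 x - (lc v (ε • a₀)).1 0 x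
        ring
    have a2 := (hv (ε • (a - a₀))).2.2 (4 * R) (by linarith) 2 (Or.inl rfl)
    have a3 := (hv (ε • (a - a₀))).2.2 (4 * R) (by linarith) 3 (Or.inr rfl)
    have a4 : K * ‖ε • (a - a₀)‖ ^ 2 ≤ K * (ε * κ) ^ 2 := by
      rw [nε]; gcongr
    have a5 := hc (m a) (hm a ha).1 (by rw [e, e]; linarith)
    rw [eF_eq hσ.smooth _ (Rk k) fun x hx => by
      show xc σ _ _ 0 x - xc σ _ _ 0 x = 0
      rw [xc_zero σ (Rk k) hx, xc_zero σ (Rk k) hx, sub_zero], ← mul_div_assoc]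
    refine lt_of_eq_of_lt ?_ a5
    congr 1
    funext x
    show xc σ _ _ 0 x - xc σ _ _ 0 x = _
    unfold xc df rs
    ring
  · rw [gF_eq hσ.smooth _ _ (Rk k) fun t x hx => xc_zero σ (Rk k) hx _ t]
    exact (ch a ha k fun j hj => by rw [← eX]; exact h j hj).2
  · have := hf l R _ x₀ (m a) l1 l2 (by linarith) x0.le R6 (hm a ha).1 fun k =>
      (ch a ha k fun j _ => by rw [← eX]; exact hk j).1
    linarith

/-- **The one-dimensional theorem from the blocks.** -/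
theorem noGlobal_of (H : FAll) (hS : Shooting) (hL : ∀ M, 1 ≤ M → LinIneq M) (hC : ContCut)
    (hσ : Shrinker 7 σ) : NoGlobal 7 := by
  obtain ⟨M, hM, hB⟩ := bg_Bg H.f10 hσ
  exact noGlobal_aux H hσ hM hB (shootP H hS hσ.smooth hM hB (hL M hM)) hC

end Vale.Agent.N264X.P264Z
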