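import Vale.Agent.N264X.E.Frc
import Vale.Agent.N264X.F.Basic

/-!
# P264: the linear energy inequality modulo finitely many functionals
-/

open scoped ContDiff Topology
open Set Filter MeasureTheory

noncomputable section

namespace Vale.Agent.N264X.P264Z

open Vale.Agent.P264Z

namespace LinA

lemma int_tail {f : ℝ → ℝ} (hf : Continuous f) {Z b : ℝ} (hZb : Z ≤ b)
    (h : ∀ x ∈ Ioo Z b, f x = 0) : ∫ x in (0 : ℝ)..b, f x = ∫ x in (0 : ℝ)..Z, f x := by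
  rw [int_split hf 0 Z b, integral_congr_Ioo (g := fun _ => 0) hZb h]
  simp

/-- the term with the time derivative of the weight -/
lemma wt_split {b Z M t : ℝ} {y u : ℝ → ℝ → ℝ} (hZ : 0 < Z) (hZb : Z ≤ b) (hM : 0 ≤ M)
    (hy : Sm y) (hu : Sm u) (h0 : ∀ x ∈ Icc 0 b, 0 ≤ y t x)
    (h : ∀ x ∈ Icc 0 b, (1 + x) * |dt y t x| ≤ M * y t x) :
    (∫ x in (0 : ℝ)..b, x ^ (2 + 2) * (y t x * dt y t x) * Lop 7 (u t) x ^ 2) ≤
      4 * M / Z * En 2 b (y t) (u t) +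
        M * Pr 2 Z (fun x => cut (Z / 4) x * Wf (y t) (u t) x) (u t) := by
  have hW := sm_Wf (hy.slice t) (hu.slice t)
  have c1 := cont_En 2 (hy.slice t).continuous (hu.slice t)
  have c2 : Continuous fun x => x ^ (2 + 2) * (cut (Z / 4) x * Wf (y t) (u t) x) *
      Lop 7 (u t) x :=
    ((continuous_pow _).mul ((sm_cut _).mul hW).continuous).mul (sm_Lop 7 (hu.slice t)).continuous
  have c3 : Continuous fun x => 4 * M / Z * (x ^ (2 + 2) * y t x ^ 2 * Lop 7 (u t) x ^ 2) :=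
    continuous_const.mul c1
  have c4 : Continuous fun x => M * (x ^ (2 + 2) * (cut (Z / 4) x * Wf (y t) (u t) x) *
      Lop 7 (u t) x) := continuous_const.mul c2
  unfold En Pr
  rw [← int_tail c2 hZb fun x hx => by rw [cut_zero (by linarith) (by linarith [hx.1])]; ring,
    ← intervalIntegral.integral_const_mul, ← intervalIntegral.integral_const_mul,
    ← int_add c3 c4]
  refine integral_mono_Ioo (by linarith)
    ((((Sm.xpow (2 + 2)).mul (hy.mul hy.dt)).mul ((hu.Lop 7).pow 2)).slice t).continuous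
    (c3.add c4) fun x hx => ?_
  have hx' := Ioo_subset_Icc_self hx
  have h1 := h x hx'
  have h2 := h0 x hx'
  have h3 : dt y t x ≤ (4 * M / Z + M * cut (Z / 4) x) * y t x := by
    refine (le_abs_self _).trans ?_
    have h4 := abs_nonneg (dt y t x)
    have h5 : 0 ≤ 4 * M / Z * y t x := by positivity
    rcases le_total x (Z / 4) with h6 | h6
    · rw [cut_one (by linarith) h6]
      nlinarith [hx.1]
    · have h7 : 0 ≤ M * cut (Z / 4) x * y t x := mul_nonneg (mul_nonneg hM (cut_nonneg _ _)) h2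
      have h8 : |dt y t x| ≤ 4 * M / Z * y t x := by
        rw [div_mul_eq_mul_div, le_div_iff₀ hZ]
        nlinarith
      linarith
  have h4 : 0 ≤ x ^ (2 + 2) * y t x * Lop 7 (u t) x ^ 2 :=
    mul_nonneg (mul_nonneg (pow_nonneg hx'.1 _) h2) (sq_nonneg _)
  have h5 := mul_le_mul_of_nonneg_left h3 h4
  unfold Wf
  linarith

/-- the potential term -/
lemma pot_split (h7 : F7a) {b Z K : ℝ} {c u : ℝ → ℝ} (hZ : 0 < Z) (hZb : Z ≤ b)
    (hc : ContDiff ℝ ∞ c) (hu : ContDiff ℝ ∞ u) (hK : ∀ x ∈ Icc 0 b, Tb c x (K / (1 + x) ^ 2)) :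
    Dn 2 b (fun x => c x * u x) ≤ 16 * K ^ 2 * Dn 2 Z u + 16 * K ^ 2 / Z * Dn 0 b u := by
  have c1 := cont_Dn 2 (hc.mul hu)
  have key : ∀ x ∈ Icc 0 b,
      dn (fun x => c x * u x) x ≤ 16 * K ^ 2 / (1 + x) ^ 4 * dn u x := fun x hx => by
    refine (h7.tb hc hu hx.1 (hK x hx)).trans (le_of_eq ?_)
    rw [div_pow]; ring
  have p1 : Dn 2 Z (fun x => c x * u x) ≤ 16 * K ^ 2 * Dn 2 Z u := by
    refine Dn_le_of_pt 2 2 hZ.le (hc.mul hu) hu fun x hx => ?_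
    have h1 := key x ⟨hx.1.le, hx.2.le.trans hZb⟩
    have h2 : 16 * K ^ 2 / (1 + x) ^ 4 ≤ 16 * K ^ 2 :=
      div_le_self (by positivity) (one_le_pow₀ (by linarith [hx.1]))
    have h3 := h1.trans (mul_le_mul_of_nonneg_right h2 (dn_nonneg u x))
    have h4 := mul_le_mul_of_nonneg_left h3 (sq_nonneg x)
    linarith
  have p2 : ∫ x in Z..b, x ^ 2 * dn (fun x => c x * u x) x ≤
      ∫ x in Z..b, 16 * K ^ 2 / Z * (x ^ 0 * dn u x) := by
    refine integral_mono_Ioo hZb c1 (continuous_const.mul (cont_Dn 0 hu)) fun x hx => ?_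
    have hx0 : 0 < x := hZ.trans hx.1
    have h1 := key x ⟨hx0.le, hx.2.le⟩
    have h2 : x ^ 2 * (16 * K ^ 2 / (1 + x) ^ 4) ≤ 16 * K ^ 2 / Z := by
      rw [← mul_div_assoc, div_le_div_iff₀ (by positivity) hZ]
      have h3 : x ^ 2 * Z ≤ (1 + x) ^ 4 := by
        have : x ^ 2 * Z ≤ x ^ 2 * x := mul_le_mul_of_nonneg_left hx.1.le (sq_nonneg x)
        nlinarith [pow_pos hx0 2, pow_pos hx0 3, pow_pos hx0 4]
      nlinarith [mul_le_mul_of_nonneg_left h3 (sq_nonneg K)]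
    have h3 := mul_le_mul_of_nonneg_left h1 (sq_nonneg x)
    have h4 := mul_le_mul_of_nonneg_right h2 (dn_nonneg u x)
    rw [pow_zero, one_mul]
    linarith
  rw [intervalIntegral.integral_const_mul] at p2
  have p3 := F.int_sub hZ.le hZb le_rfl (cont_Dn 0 hu)
    (fun x hx => mul_nonneg (pow_nonneg hx.1 0) (dn_nonneg u x))
  have p4 := mul_le_mul_of_nonneg_left p3 (show 0 ≤ 16 * K ^ 2 / Z by positivity)
  have p5 := int_split c1 0 Z b
  unfold Dn at *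
  linarith

lemma tb_cut (h10 : F10) : ∃ C : ℝ, 1 ≤ C ∧ ∀ B x : ℝ, 0 < B → 0 ≤ x → Tb (cut B) x C := by
  obtain ⟨C, hC, h⟩ := h10
  refine ⟨C, hC, fun B x hB hx => ⟨?_, ?_, ?_⟩⟩
  · simpa using h B x 0 hB hx (by norm_num)
  · simpa using h B x 1 hB hx (by norm_num)
  · simpa [iteratedDeriv_succ] using h B x 2 hB hx (by norm_num)

/-- the fixed-time inequality -/
lemma dEn_lin (H : FAll) (M : ℝ) (hM : 1 ≤ M) : ∃ A₁ A₂ C : ℝ, 0 < A₁ ∧ 0 < A₂ ∧ 0 < C ∧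
    ∀ (b Z z t : ℝ) (y a u : ℝ → ℝ → ℝ), 0 < Z → Z ≤ b → Sm y → Sm a → Sm u →
      Wt b M (y t) (a t) → y t b = 0 → (∀ x ∈ Icc 0 b, (1 + x) * |dt y t x| ≤ M * y t x) →
      u t b = 0 → deriv (u t) b = 0 → (∀ x ∈ Icc 0 Z, (x * Mop 7 (u t) x) ^ 2 ≤ z) →
      dEn 2 b y u t ≤ -(1 / 8 * Dn 2 b (Wf (y t) (u t))) + A₁ / Z * En 2 b (y t) (u t) +
        A₂ * Z * z + C * Dn 2 b (frc y a u t) := by
  obtain ⟨C0, hC0, h0⟩ := dEn_le H.f2 H.f3
  obtain ⟨C3, hC3, h3⟩ := H.f3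
  obtain ⟨C5, hC5, h5⟩ := H.f5b
  obtain ⟨C6, hC6, h6⟩ := H.f6
  obtain ⟨Cc, hCc, hc⟩ := tb_cut H.f10
  set K : ℝ := 16 * (8 * M ^ 2) ^ 2 with hK
  have hK0 : 0 < K := by positivity
  set ν : ℝ := 1 / (256 * M * Cc ^ 2) with hν
  have hν0 : 0 < ν := by positivity
  refine ⟨8 * M + 2 * C0 * K * C6 * M ^ 2, 2 * M * (C3 / ν) * C5 + 2 * C0 * K * C5, 2 * C0,
    by positivity, by positivity, by positivity, ?_⟩
  intro b Z z t y a u hZ hZb hy ha hu hw yb0 hyt u0 u1 hz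
  have hb : 0 < b := hZ.trans_le hZb
  have hW := sm_Wf (hy.slice t) (hu.slice t)
  obtain ⟨w0, w1⟩ := Wf_end (hy.slice t) (hu.slice t) yb0
  have k0 := h0 2 b t y u (Or.inl rfl) hb hy hu w0 w1
  have k1 := wt_split hZ hZb (by linarith) hy hu (fun x hx => hw.y_nonneg hb hM hx) hyt
  have ev : (fun x => cut (Z / 4) x * Wf (y t) (u t) x) =ᶠ[𝓝 Z] fun _ => 0 := by
    filter_upwards [Ioi_mem_nhds (show Z / 2 < Z by linarith)] with x hx
    rw [cut_zero (by linarith) (by linarith [mem_Ioi.1 hx]), zero_mul]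
  have k2 := (le_abs_self _).trans (h3 2 Z ν _ _ (Or.inl rfl) hZ hν0 ((sm_cut (Z / 4)).mul hW)
    (hu.slice t) ev.eq_of_nhds (by rw [ev.deriv_eq]; simp))
  have k3 : Dn 2 Z (fun x => cut (Z / 4) x * Wf (y t) (u t) x) ≤
      16 * Cc ^ 2 * Dn 2 Z (Wf (y t) (u t)) :=
    Dn_le_of_pt 2 2 hZ.le ((sm_cut _).mul hW) hW fun x hx => by
      have := mul_le_mul_of_nonneg_left
        (H.f7a.tb (sm_cut (Z / 4)) hW hx.1.le (hc (Z / 4) x (by linarith) hx.1.le)) (sq_nonneg x)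
      linarith
  have k4 := Dn_mono_right 2 hZ.le hZb hW
  have k5 := h5 Z z (u t) hZ (hu.slice t) hz
  have s1 : ContDiff ℝ ∞ fun x => 2 * (y t x * a t x) := contDiff_const.mul (hw.sy.mul hw.sa)
  have k6 := pot_split H.f7a hZ hZb s1 (hu.slice t) fun x hx => hw.tb_a2 hb hM hx
  have k7 := (h6 b (u t) hb (hu.slice t) u0 u1).trans
    (mul_le_mul_of_nonneg_left (hw.En_v hb hM (hu.slice t) 2) hC6.le)
  have e : (fun x => dt u t x + Wf (y t) (u t) x) =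
      fun x => 2 * (y t x * a t x) * u t x + frc y a u t x := by
    funext x; unfold frc; ring
  have k8 := Dn_add_le 2 hb.le (s1.mul (hu.slice t)) ((hy.frc ha hu).slice t)
  rw [e] at k0
  rw [← hK] at k6
  set D := Dn 2 b (Wf (y t) (u t))
  set E := En 2 b (y t) (u t)
  set G := Dn 2 b (frc y a u t)
  set U := Dn 2 Z (u t)
  have q1 : ν * Dn 2 Z (fun x => cut (Z / 4) x * Wf (y t) (u t) x) ≤ ν * (16 * Cc ^ 2 * D) := by
    gcongr
    exact k3.trans (by gcongr)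
  have q2 : 2 * M * (ν * (16 * Cc ^ 2 * D)) = 1 / 8 * D := by rw [hν]; field_simp; ring
  have q3 : C3 / ν * U ≤ C3 / ν * (C5 * Z * z) := by gcongr
  have q4 : K * U ≤ K * (C5 * Z * z) := by gcongr
  have q5 : K / Z * Dn 0 b (u t) ≤ K / Z * (C6 * (M ^ 2 * E)) := by gcongr
  have q6 := mul_le_mul_of_nonneg_left (k2.trans (add_le_add q1 q3)) (show 0 ≤ 2 * M by linarith)
  have q7 := mul_le_mul_of_nonneg_left (k6.trans (add_le_add q4 q5)) (show 0 ≤ 2 * C0 by linarith)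
  have q8 := mul_le_mul_of_nonneg_left k8 hC0.le
  have e1 : (8 * M + 2 * C0 * K * C6 * M ^ 2) / Z * E =
      2 * (4 * M / Z * E) + 2 * C0 * (K / Z * (C6 * (M ^ 2 * E))) := by ring
  rw [e1]
  linarith

/-- distance of a value to the cell average -/
lemma cell_osc {φ : ℝ → ℝ} (hφ : Continuous φ) {c h s x : ℝ} (hh : 0 < h)
    (H : ∀ z ∈ Icc c (c + h), (φ x - φ z) ^ 2 ≤ s) :
    (h * φ x - ∫ z in c..c + h, φ z) ^ 2 ≤ h ^ 2 * s := by
  have e : h * φ x - ∫ z in c..c + h, φ z = ∫ z in c..c + h, (φ x - φ z) := by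
    rw [intervalIntegral.integral_sub (by simp) (hφ.intervalIntegrable _ _)]
    simp
  have hs : 0 ≤ s := (sq_nonneg _).trans (H c ⟨le_rfl, by linarith⟩)
  have := F.cs (a := c) (b := c + h) (by linarith) (h := fun z => φ x - φ z) (F := fun _ => 1)
    (G := fun _ => s) (by fun_prop) (by fun_prop) (by fun_prop) (fun _ _ => zero_le_one)
    (fun _ _ => hs) fun z hz => by rw [one_mul]; exact H z (Ioo_subset_Icc_self hz)
  rw [e]
  refine this.trans (le_of_eq ?_)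
  simp
  ring

/-- the change in time of a cell integral -/
lemma cell_time {C b c d t : ℝ} {u : ℝ → ℝ → ℝ} (hu : Sm u) (hC : 0 ≤ C) (hb : 0 ≤ b)
    (hcd : c ≤ d) (ht : 0 ≤ t)
    (h : ∀ s, (∫ x in c..d, x * Mop 7 (dt u s) x) ^ 2 ≤ C * Dn 2 b (dt u s)) :
    ((∫ x in c..d, x * Mop 7 (u t) x) - ∫ x in c..d, x * Mop 7 (u 0) x) ^ 2 ≤
      t * (C * ∫ s in (0 : ℝ)..t, Dn 2 b (dt u s)) := by
  have h1 : ∀ s, HasDerivAt (fun s => ∫ x in c..d, x * Mop 7 (u s) x)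
      (∫ x in c..d, x * Mop 7 (dt u s) x) s := fun s => by
    refine ((Sm.x.mul (hu.Mop 7)).hasDerivAt_int hcd s).congr_deriv
      (intervalIntegral.integral_congr fun x _ => ?_)
    rw [← hu.dt_Mop 7 s]
    exact dt_xmul (fun x => x) (fun t => Mop 7 (u t)) s x
  have c1 : Continuous fun s => ∫ x in c..d, x * Mop 7 (dt u s) x :=
    (Sm.x.mul (hu.dt.Mop 7)).cont_int c d
  have c2 : Continuous fun s => C * Dn 2 b (dt u s) := continuous_const.mul (hu.dt.cont_Dn 2 b)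
  rw [← intervalIntegral.integral_eq_sub_of_hasDerivAt (fun s _ => h1 s)
    (c1.intervalIntegrable _ _)]
  have := F.cs ht c1.continuousOn (F := fun _ => 1) continuousOn_const c2.continuousOn
    (fun _ _ => zero_le_one) (fun s _ => mul_nonneg hC (Dn_nonneg 2 hb _))
    fun s _ => by rw [one_mul]; exact h s
  refine this.trans (le_of_eq ?_)
  rw [intervalIntegral.integral_const_mul]
  simp

lemma exists_cell {N : ℕ} (hN : 0 < N) {h x : ℝ} (hh : 0 < h) (hx : x ∈ Icc 0 (N * h)) :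
    ∃ i : Fin N, x ∈ Icc (((i : ℕ) : ℝ) * h) (((i : ℕ) : ℝ) * h + h) := by
  rcases hx.2.eq_or_lt with e | e
  · refine ⟨⟨N - 1, by omega⟩, ?_⟩
    have : ((N - 1 : ℕ) : ℝ) = N - 1 := by rw [Nat.cast_sub (by omega)]; simp
    simp only [this]
    constructor <;> nlinarith
  · have h0 : 0 ≤ x / h := div_nonneg hx.1 hh.le
    have h1 : ⌊x / h⌋₊ < N := (Nat.floor_lt h0).2 (by rwa [div_lt_iff₀ hh])
    refine ⟨⟨⌊x / h⌋₊, h1⟩, ?_, ?_⟩
    · have := Nat.floor_le h0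
      rwa [le_div_iff₀ hh] at this
    · have := (Nat.lt_floor_add_one (x / h)).le
      rw [div_le_iff₀ hh] at this
      simp only
      linarith

lemma int_lin {f g : ℝ → ℝ} (hf : Continuous f) (hg : Continuous g) (α β K τ : ℝ) :
    ∫ s in (0 : ℝ)..τ, (α * f s + β * g s + K) =
      α * (∫ s in (0 : ℝ)..τ, f s) + β * (∫ s in (0 : ℝ)..τ, g s) + τ * K := by
  have c1 : Continuous fun s => α * f s := continuous_const.mul hf
  have c2 : Continuous fun s => β * g s := continuous_const.mul hg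
  have c3 : Continuous fun s => α * f s + β * g s := c1.add c2
  rw [int_add c3 continuous_const, int_add c1 c2, intervalIntegral.integral_const_mul,
    intervalIntegral.integral_const_mul, intervalIntegral.integral_const, smul_eq_mul, sub_zero]

lemma three_sq {h φ c0 c1 α β γ : ℝ} (hh : 0 < h) (o1 : (h * φ - c1) ^ 2 ≤ h ^ 2 * α)
    (o2 : (c1 - c0) ^ 2 ≤ h * β) (o3 : c0 ^ 2 ≤ γ) :
    φ ^ 2 ≤ 3 / h ^ 2 * γ + 3 / h * β + 3 * α := by
  refine le_of_mul_le_mul_left ?_ (pow_pos hh 2)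
  have e : h ^ 2 * (3 / h ^ 2 * γ + 3 / h * β + 3 * α) = 3 * γ + 3 * (h * β) + 3 * (h ^ 2 * α) := by
    field_simp
  rw [e]
  nlinarith [sq_nonneg (h * φ - c1 - (c1 - c0)), sq_nonneg (h * φ - c1 - c0),
    sq_nonneg (c1 - c0 - c0)]

/-- the sup bound on the compact part -/
lemma sup_bound (H : FAll) : ∃ C : ℝ, 0 < C ∧ ∀ (N : ℕ) (b h s η S V : ℝ) (u : ℝ → ℝ → ℝ),
    0 < N → 0 < h → 2 * (N * h) ≤ b → 0 ≤ s → s ≤ η → Sm u → u s b = 0 → deriv (u s) b = 0 →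
    En 2 b (vw b) (u s) ≤ S → (∫ r in (0 : ℝ)..s, Dn 2 b (dt u r)) ≤ V → ∀ x ∈ Icc 0 (N * h),
      (x * Mop 7 (u s) x) ^ 2 ≤ 3 / h ^ 2 *
        (∑ i : Fin N, (∫ x in ((i : ℕ) * h)..(((i : ℕ) + 1) * h), x * Mop 7 (u 0) x) ^ 2) +
        3 / h * (C * η * V) + 3 * (C * h * S) := by
  obtain ⟨C8, hC8, h8⟩ := H.f8
  obtain ⟨C9, hC9, h9⟩ := H.f9
  refine ⟨C8 + C9, by positivity, ?_⟩
  intro N b h s η S V u hN hh hb2 hs hsη hu u0 u1 hS hV x hx
  have hZ : 0 < N * h := by positivity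
  have hb : 0 < b := by linarith
  obtain ⟨i, hi⟩ := exists_cell hN hh hx
  have i0 : 0 ≤ ((i : ℕ) : ℝ) * h := by positivity
  have i1 : ((i : ℕ) : ℝ) * h + h ≤ N * h := by
    have : ((i : ℕ) : ℝ) + 1 ≤ N := by exact_mod_cast i.2
    nlinarith
  have o1 := cell_osc (φ := fun x => x * Mop 7 (u s) x) (s := (C8 + C9) * h * S) (x := x)
    (c := (i : ℕ) * h) (continuous_id.mul (sm_Mop 7 (hu.slice s)).continuous) hh
    fun w hw => by
      have k1 := h8 b (u s) hb (hu.slice s) u0 u1 x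
        ⟨hx.1, by linarith [hx.2]⟩ w ⟨by linarith [hw.1], by linarith [hw.2]⟩
      have k3 : |x - w| ≤ h := abs_le.2 ⟨by linarith [hi.1, hw.2], by linarith [hi.2, hw.1]⟩
      have k4 := En_nonneg 2 hb.le (vw b) (u s)
      refine k1.trans ?_
      gcongr
      linarith
  have o2 := cell_time (C := C9 * h) (c := (i : ℕ) * h) (d := (i : ℕ) * h + h) hu
    (by positivity) hb.le (by linarith) hs fun r => by
      have := h9 b ((i : ℕ) * h) ((i : ℕ) * h + h) (dt u r) i0 (by linarith) (by linarith)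
        (hu.dt.slice r)
      rwa [add_sub_cancel_left] at this
  have o3 := Finset.single_le_sum (s := Finset.univ) (f := fun i : Fin N =>
    (∫ x in ((i : ℕ) * h)..(((i : ℕ) + 1) * h), x * Mop 7 (u 0) x) ^ 2)
    (fun _ _ => sq_nonneg _) (Finset.mem_univ i)
  have o5 : 0 ≤ ∫ r in (0 : ℝ)..s, Dn 2 b (dt u r) :=
    intervalIntegral.integral_nonneg hs fun _ _ => Dn_nonneg 2 hb.le _
  have o6 : s * (C9 * h * ∫ r in (0 : ℝ)..s, Dn 2 b (dt u r)) ≤ η * ((C8 + C9) * h * V) := by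
    have := hs.trans hsη
    gcongr
    linarith
  rw [add_mul, one_mul] at o3
  exact three_sq hh o1 (o2.trans (o6.trans (le_of_eq (by ring)))) o3

lemma arith {S E0 J g L τ η A C Q p q r : ℝ} (hτ : τ ≤ η) (hη : 0 ≤ η) (hη1 : η ≤ 1) (hS : 0 ≤ S)
    (hJ : 0 ≤ J) (hg : 0 ≤ g) (hL : 0 ≤ L) (hQ : 0 ≤ Q) (hA : 0 ≤ A)
    (main : S ≤ E0 + (-(1 / 8) * J + C * g + τ * (1 / 12 * S + A)))
    (e : η * A = η * (Q * L) + p * (g + J) + q * (η * S) + r * (η * S))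
    (hp : p ≤ 1 / 8) (hq : q ≤ 1 / 12) (hr : r ≤ 1 / 12) :
    (1 - η / 4) * S ≤ E0 + (C + 1 / 8) * g + Q * L := by
  have m1 : τ * (1 / 12 * S + A) ≤ η * (1 / 12 * S + A) := by gcongr
  have hηS : 0 ≤ η * S := by positivity
  have m5 := mul_le_mul_of_nonneg_right hp (add_nonneg hg hJ)
  have m6 := mul_le_mul_of_nonneg_right hq hηS
  have m7 := mul_le_mul_of_nonneg_right hr hηS
  have m8 : η * (Q * L) ≤ 1 * (Q * L) := by gcongr
  linarith

lemma consts {A₂ Z C C1 M : ℝ} (hA : 0 < A₂) (hZ : 0 < Z) (hC : 0 < C) (hC1 : 0 < C1)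
    (hM : 0 < M) : ∃ (N : ℕ) (η : ℝ), 0 < N ∧ 0 < η ∧ η ≤ 1 / 2 ∧
      12 * A₂ * N * C * η ^ 2 ≤ 1 / 8 ∧ 6 * A₂ * N * C * C1 * η ^ 2 ≤ 1 / 12 ∧
      3 * A₂ * Z ^ 2 * C * M ^ 2 / N ≤ 1 / 12 := by
  obtain ⟨N, hN⟩ := exists_nat_gt (36 * A₂ * Z ^ 2 * C * M ^ 2)
  have hN0 : (0 : ℝ) < N := lt_trans (by positivity) hN
  obtain ⟨P, hP⟩ : ∃ P, P = 96 * A₂ * N * C * (C1 + 1) := ⟨_, rfl⟩
  have hP0 : 0 < P := by rw [hP]; positivity
  obtain ⟨η, hη⟩ : ∃ η, η = 1 / (2 + P) := ⟨_, rfl⟩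
  have hη0 : 0 < η := by rw [hη]; positivity
  have hη1 : η * (2 + P) = 1 := by rw [hη]; field_simp
  have hη2 : η ≤ 1 / 2 := by nlinarith
  have hη3 : η ^ 2 * P ≤ 1 := by nlinarith
  rw [hP] at hη3
  refine ⟨N, η, by exact_mod_cast hN0, hη0, hη2, ?_, ?_, ?_⟩
  · have : 0 ≤ A₂ * N * C * C1 * η ^ 2 := by positivity
    linarith
  · have : 0 ≤ A₂ * N * C * η ^ 2 := by positivity
    linarith
  · rw [div_le_iff₀ hN0]; linarith

end LinA

open LinA in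
/-- **The linear energy inequality.** -/
theorem lin_ineq (H : FAll) (M : ℝ) (hM : 1 ≤ M) : LinIneq M := by
  obtain ⟨A₁, A₂, C, hA₁, hA₂, hC, hA⟩ := dEn_lin H M hM
  obtain ⟨C1, hC1, h1⟩ := Dn_lin H.f6 H.f7a M hM
  obtain ⟨C8, hC8, h8⟩ := sup_bound H
  obtain ⟨Z, hZ⟩ : ∃ Z, Z = 12 * A₁ := ⟨_, rfl⟩
  have hZ0 : 0 < Z := by rw [hZ]; positivity
  obtain ⟨N, η, hN, hη0, hη2, m2, m3, m4⟩ := consts hA₂ hZ0 hC8 hC1 (show 0 < M by linarith)
  have hN0 : (0 : ℝ) < N := by exact_mod_cast hN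
  obtain ⟨h, hh⟩ : ∃ h, h = Z / N := ⟨_, rfl⟩
  have hh0 : 0 < h := by rw [hh]; positivity
  have hNh : N * h = Z := by rw [hh]; field_simp
  have hQ : 0 ≤ 3 * A₂ * Z / h ^ 2 := by positivity
  refine ⟨η, h, C + 1 / 8 + 3 * A₂ * Z / h ^ 2, N, hη0, by linarith, hh0, by positivity, ?_⟩
  intro b ρ₂ ρ₃ mb u hb h4 hB hu hend
  have hy := hB.sm.yb
  have ha := hB.sm.ab
  set E : ℝ → ℝ := fun t => En 2 b (yb mb t) (u t) with hE
  set D : ℝ → ℝ := fun t => Dn 2 b (Wf (yb mb t) (u t)) with hD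
  set G : ℝ → ℝ := fun t => Dn 2 b (frc (yb mb) (ab mb) u t) with hG
  have cE : Continuous E := hy.cont_En hu 2 b
  have cD : Continuous D := (hy.Wf hu).cont_Dn 2 b
  have cG : Continuous G := (hy.frc ha hu).cont_Dn 2 b
  have cU : Continuous fun s => Dn 2 b (dt u s) := hu.dt.cont_Dn 2 b
  obtain ⟨τ, hτ, hmax⟩ := isCompact_Icc.exists_isMaxOn (nonempty_Icc.2 hη0.le) cE.continuousOn
  have hES : ∀ s ∈ Icc 0 η, E s ≤ E τ := fun s hs => hmax hs
  have hS0 : 0 ≤ E τ := En_nonneg 2 hb.le _ _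
  obtain ⟨L, hL⟩ : ∃ L, L =
    ∑ i : Fin N, (∫ x in ((i : ℕ) * h)..(((i : ℕ) + 1) * h), x * Mop 7 (u 0) x) ^ 2 := ⟨_, rfl⟩
  have hL0 : 0 ≤ L := hL ▸ Finset.sum_nonneg fun _ _ => sq_nonneg _
  have hJ0 : 0 ≤ ∫ s in (0 : ℝ)..τ, D s :=
    intervalIntegral.integral_nonneg hτ.1 fun _ _ => Dn_nonneg 2 hb.le _
  have hg0 : 0 ≤ ∫ s in (0 : ℝ)..τ, G s :=
    intervalIntegral.integral_nonneg hτ.1 fun _ _ => Dn_nonneg 2 hb.le _
  have hgg : ∫ s in (0 : ℝ)..τ, G s ≤ ∫ s in (0 : ℝ)..η, G s :=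
    F.int_sub le_rfl hτ.1 hτ.2 cG fun _ _ => Dn_nonneg 2 hb.le _
  have hdt : ∀ s ∈ Icc 0 η, Dn 2 b (dt u s) ≤ 4 * G s + 4 * D s + 2 * C1 * E τ := fun s hs => by
    have hw := hB.wt s hs
    have s1 : ContDiff ℝ ∞ fun x => 2 * (yb mb s x * ab mb s x) * u s x :=
      (contDiff_const.mul (hw.sy.mul hw.sa)).mul (hu.slice s)
    have s2 := (hy.frc ha hu).slice s
    have s3 := sm_Wf hw.sy (hu.slice s)
    have e : dt u s = fun x => (frc (yb mb) (ab mb) u s x - Wf (yb mb s) (u s) x) +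
        2 * (yb mb s x * ab mb s x) * u s x := by
      funext x; unfold frc; ring
    have k1 := Dn_add_le 2 hb.le (s2.sub s3) s1
    have k2 := Dn_sub_le 2 hb.le s2 s3
    have k3 := (h1 2 b _ _ _ (Or.inl rfl) hb hw (hu.slice s) (hend s).1 (hend s).2).trans
      (mul_le_mul_of_nonneg_left (hES s hs) hC1.le)
    rw [← e] at k1
    change _ ≤ 2 * G s + 2 * D s at k2
    linarith
  obtain ⟨V, hV⟩ : ∃ V, V = 4 * (∫ s in (0 : ℝ)..τ, G s) + 4 * (∫ s in (0 : ℝ)..τ, D s) +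
    η * (2 * C1 * E τ) := ⟨_, rfl⟩
  have hV0 : 0 ≤ V := by rw [hV]; positivity
  have hI : ∫ s in (0 : ℝ)..τ, Dn 2 b (dt u s) ≤ V := by
    have := integral_mono_Ioo (g := fun s => 4 * G s + 4 * D s + 2 * C1 * E τ) hτ.1 cU
      (by fun_prop) fun s hs => hdt s ⟨hs.1.le, hs.2.le.trans hτ.2⟩
    rw [int_lin cG cD] at this
    have : τ * (2 * C1 * E τ) ≤ η * (2 * C1 * E τ) := by gcongr; exact hτ.2
    linarith
  obtain ⟨z, hz⟩ : ∃ z, z = 3 / h ^ 2 * L + 3 / h * (C8 * η * V) + 3 * (C8 * h * (M ^ 2 * E τ)) :=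
    ⟨_, rfl⟩
  have hz0 : 0 ≤ z := by rw [hz]; positivity
  have main := le_add_integral hτ.1 (fun s => hasDerivAt_En' hy hu 2 hb.le s)
    (h := fun s => -(1 / 8) * D s + C * G s + (1 / 12 * E τ + A₂ * Z * z))
    (by fun_prop) fun s hs => by
      have hs' : s ∈ Icc 0 η := ⟨hs.1, hs.2.trans hτ.2⟩
      have k0 := h8 N b h s η (M ^ 2 * E τ) V u hN hh0 (by linarith) hs.1 hs'.2 hu (hend s).1
        (hend s).2 (((hB.wt s hs').En_v hb hM (hu.slice s) 2).trans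
          (mul_le_mul_of_nonneg_left (hES s hs') (sq_nonneg M)))
        ((F.int_sub le_rfl hs.1 hs.2 cU fun _ _ => Dn_nonneg 2 hb.le _).trans hI)
      rw [← hL, ← hz, hNh] at k0
      have k1 := hA b Z z s _ _ u hZ0 (by linarith) hy ha hu (hB.wt s hs') (hB.y_end hb hs')
        (hB.yt s hs') (hend s).1 (hend s).2 k0
      have e : A₁ / Z = 1 / 12 := by rw [hZ]; field_simp
      rw [e] at k1
      change _ ≤ -(1 / 8 * D s) + 1 / 12 * E s + _ + C * G s at k1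
      linarith [hES s hs']
  rw [int_lin cD cG] at main
  have fin := arith hτ.2 hη0.le (by linarith) hS0 hJ0 hg0 hL0 hQ (by positivity) main
    (by rw [hz, hV, hh]; field_simp; ring) m2 m3 m4
  have m9 := mul_le_mul_of_nonneg_left (hES η ⟨hη0.le, le_rfl⟩) (show 0 ≤ 1 - η / 4 by linarith)
  have m10 := mul_le_mul_of_nonneg_left hgg (show 0 ≤ C + 1 / 8 by linarith)
  have m11 := mul_nonneg hQ (hg0.trans hgg)
  have m12 := mul_nonneg (show 0 ≤ C + 1 / 8 by linarith) hL0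
  rw [← hL]
  change (1 - η / 4) * E η ≤ E 0 + _ * (∫ s in (0 : ℝ)..η, G s) + _
  change _ ≤ E 0 + _ + _ at fin
  linarith

end Vale.Agent.N264X.P264Z
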