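import Vale.Agent.N264X.E.Step

/-!
# P264: the linear algebra setting of the shooting argument
-/

open scoped ContDiff Topology
open Set Filter MeasureTheory

noncomputable section

namespace Vale.Agent.N264X.P264Z

open Vale.Agent.P264Z

/-- vanishing for `x ≥ b` -/
def Van (b : ℝ) (u : ℝ → ℝ → ℝ) : Prop := ∀ t x, b ≤ x → u t x = 0

lemma van_deriv {f : ℝ → ℝ} {b : ℝ} (hf : ContDiff ℝ ∞ f) (h : ∀ x, b ≤ x → f x = 0) :
    ∀ x, b ≤ x → deriv f x = 0 := by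
  have hc : IsClosed {x | deriv f x = 0} := isClosed_eq (sm_deriv hf).continuous continuous_const
  have hs : Ioi b ⊆ {x | deriv f x = 0} := fun x hx => by
    have e : f =ᶠ[𝓝 x] fun _ => 0 := by
      filter_upwards [Ioi_mem_nhds hx] with z hz using h z (le_of_lt hz)
    show deriv f x = 0
    rw [e.deriv.eq_of_nhds]; simp
  have := hc.closure_subset_iff.2 hs
  rw [closure_Ioi] at this
  exact fun x hx => this hx

lemma van_Lop {f : ℝ → ℝ} {b : ℝ} (hf : ContDiff ℝ ∞ f) (h : ∀ x, b ≤ x → f x = 0) :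
    ∀ x, b ≤ x → Lop 7 f x = 0 := by
  have h1 := van_deriv hf h
  have h2 := van_deriv (sm_deriv hf) h1
  refine van_deriv (sm_deriv (sm_Mop 7 hf)) (van_deriv (sm_Mop 7 hf) fun x hx => ?_)
  unfold Mop
  rw [h x hx, h1 x hx, h2 x hx]; ring

variable {b : ℝ} {u w : ℝ → ℝ → ℝ}

lemma Van.mono {c : ℝ} (h : Van b u) (hbc : b ≤ c) : Van c u := fun t x hx => h t x (hbc.trans hx)
lemma Van.dx (h : Van b u) (hu : Sm u) : Van b (fun t => deriv (u t)) :=
  fun t => van_deriv (hu.slice t) (h t)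
lemma Van.Lop (h : Van b u) (hu : Sm u) : Van b (fun t => Lop 7 (u t)) :=
  fun t => van_Lop (hu.slice t) (h t)
lemma Van.dt (h : Van b u) : Van b (dt u) := fun t x hx => by
  unfold P264Z.dt
  simp [h _ x hx]
lemma Van.frc (y a : ℝ → ℝ → ℝ) (h : Van b u) (hu : Sm u) : Van b (frc y a u) := fun t x hx => by
  unfold P264Z.frc Wf
  rw [h.dt t x hx, van_Lop (hu.slice t) (h t) x hx, h t x hx]; ring

/-- smooth functions vanishing for large `x` -/
def TS : Submodule ℝ (ℝ → ℝ → ℝ) where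
  carrier := {u | Sm u ∧ ∃ b, Van b u}
  add_mem' := by
    rintro u w ⟨hu, b, hb⟩ ⟨hw, c, hc⟩
    refine ⟨hu.add hw, max b c, fun t x hx => ?_⟩
    show u t x + w t x = 0
    rw [hb t x ((le_max_left _ _).trans hx), hc t x ((le_max_right _ _).trans hx), add_zero]
  zero_mem' := ⟨Sm.const 0, 0, fun _ _ _ => rfl⟩
  smul_mem' := by
    rintro c u ⟨hu, b, hb⟩
    refine ⟨hu.cmul c, b, fun t x hx => ?_⟩
    show c * u t x = 0
    rw [hb t x hx, mul_zero]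

lemma TS.sm (u : TS) : Sm u.1 := u.2.1

lemma TS.van (u : TS) (c : ℝ) : ∃ b, c ≤ b ∧ Van b u.1 := by
  obtain ⟨b, hb⟩ := u.2.2
  exact ⟨max c b, le_max_left _ _, hb.mono (le_max_right _ _)⟩

lemma TS.van2 (u w : TS) : ∃ b, 0 ≤ b ∧ Van b u.1 ∧ Van b w.1 := by
  obtain ⟨b, hb, h⟩ := TS.van u 0
  obtain ⟨c, hc, h'⟩ := TS.van w b
  exact ⟨c, hb.trans hc, h.mono hc, h'⟩

lemma int_Ioi {h : ℝ → ℝ} (hb : 0 ≤ b) (h0 : ∀ x, b ≤ x → h x = 0) :
    ∫ x in Ioi (0 : ℝ), h x = ∫ x in (0 : ℝ)..b, h x := by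
  rw [intervalIntegral.integral_of_le hb]
  refine setIntegral_eq_of_subset_of_forall_sdiff_eq_zero measurableSet_Ioi Ioc_subset_Ioi_self
    fun x hx => h0 x ?_
  by_contra hc
  exact hx.2 ⟨hx.1, (not_le.1 hc).le⟩

/-- integral of the slice at time zero -/
def I0 : TS →ₗ[ℝ] ℝ where
  toFun u := ∫ x in Ioi (0 : ℝ), u.1 0 x
  map_add' u w := by
    obtain ⟨b, hb, h1, h2⟩ := TS.van2 u w
    rw [int_Ioi hb (h1 0), int_Ioi hb (h2 0),
      ← int_add ((TS.sm u).slice 0).continuous ((TS.sm w).slice 0).continuous]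
    exact int_Ioi hb fun x hx => by
      show u.1 0 x + w.1 0 x = 0
      rw [h1 0 x hx, h2 0 x hx, add_zero]
  map_smul' c u := integral_const_mul c _

/-- space-time integral -/
def I1 (η : ℝ) : TS →ₗ[ℝ] ℝ where
  toFun u := ∫ t in (0 : ℝ)..η, ∫ x in Ioi (0 : ℝ), u.1 t x
  map_add' u w := by
    obtain ⟨b, hb, h1, h2⟩ := TS.van2 u w
    have e : ∀ t, ∫ x in Ioi (0 : ℝ), (u + w).1 t x =
        (∫ x in (0 : ℝ)..b, u.1 t x) + ∫ x in (0 : ℝ)..b, w.1 t x := fun t => by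
      rw [← int_add ((TS.sm u).slice t).continuous ((TS.sm w).slice t).continuous]
      exact int_Ioi hb fun x hx => by
        show u.1 t x + w.1 t x = 0
        rw [h1 t x hx, h2 t x hx, add_zero]
    simp only [e, fun t => int_Ioi hb (h1 t), fun t => int_Ioi hb (h2 t)]
    exact int_add ((TS.sm u).cont_int 0 b) ((TS.sm w).cont_int 0 b) 0 η
  map_smul' c u := by
    have e : ∀ t, ∫ x in Ioi (0 : ℝ), (c • u).1 t x = c * ∫ x in Ioi (0 : ℝ), u.1 t x :=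
      fun t => integral_const_mul c _
    simp only [e]
    exact intervalIntegral.integral_const_mul c _

/-- the pointwise product -/
def mulB : TS →ₗ[ℝ] TS →ₗ[ℝ] TS :=
  LinearMap.mk₂ ℝ (fun u w => ⟨fun t x => u.1 t x * w.1 t x, (TS.sm u).mul (TS.sm w), by
      obtain ⟨b, hb⟩ := u.2.2
      exact ⟨b, fun t x hx => by simp only [hb t x hx, zero_mul]⟩⟩)
    (fun u v w => Subtype.ext (funext fun t => funext fun x => add_mul _ _ _))
    (fun c u w => Subtype.ext (funext fun t => funext fun x => mul_assoc _ _ _))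
    (fun u v w => Subtype.ext (funext fun t => funext fun x => mul_add _ _ _))
    (fun c u w => Subtype.ext (funext fun t => funext fun x => mul_left_comm _ _ _))

/-- multiplication by a smooth function -/
def opMul (c : ℝ → ℝ → ℝ) (hc : Sm c) : TS →ₗ[ℝ] TS where
  toFun u := ⟨fun t x => c t x * u.1 t x, hc.mul (TS.sm u), by
    obtain ⟨b, hb⟩ := u.2.2
    exact ⟨b, fun t x hx => by simp only [hb t x hx, mul_zero]⟩⟩
  map_add' u w := Subtype.ext (funext fun t => funext fun x => mul_add _ _ _)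
  map_smul' a u := Subtype.ext (funext fun t => funext fun x => mul_left_comm _ _ _)

/-- the space derivative -/
def opDx : TS →ₗ[ℝ] TS where
  toFun u := ⟨fun t => deriv (u.1 t), (TS.sm u).dx, by
    obtain ⟨b, hb⟩ := u.2.2
    exact ⟨b, hb.dx (TS.sm u)⟩⟩
  map_add' u w := Subtype.ext (funext fun t => deriv_add' ((TS.sm u).slice t) ((TS.sm w).slice t))
  map_smul' a u := Subtype.ext (funext fun t => deriv_cmul' a (u.1 t))

/-- the fourth order operator -/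
def opL : TS →ₗ[ℝ] TS where
  toFun u := ⟨fun t => Lop 7 (u.1 t), (TS.sm u).Lop 7, by
    obtain ⟨b, hb⟩ := u.2.2
    exact ⟨b, hb.Lop (TS.sm u)⟩⟩
  map_add' u w := Subtype.ext (funext fun t => Lop_add 7 ((TS.sm u).slice t) ((TS.sm w).slice t))
  map_smul' a u := Subtype.ext (funext fun t => Lop_cmul 7 a (u.1 t))

/-- the force -/
def opF (y a : ℝ → ℝ → ℝ) (hy : Sm y) (ha : Sm a) : TS →ₗ[ℝ] TS where
  toFun u := ⟨frc y a u.1, hy.frc ha (TS.sm u), by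
    obtain ⟨b, hb⟩ := u.2.2
    exact ⟨b, hb.frc y a (TS.sm u)⟩⟩
  map_add' u w := Subtype.ext (funext fun t => funext fun x => by
    have h1 : dt (u + w).1 t x = dt u.1 t x + dt w.1 t x := (TS.sm u).dt_add (TS.sm w) t x
    have h2 : Lop 7 ((u + w).1 t) x = Lop 7 (u.1 t) x + Lop 7 (w.1 t) x :=
      congrFun (Lop_add 7 ((TS.sm u).slice t) ((TS.sm w).slice t)) x
    have h3 : (u + w).1 t x = u.1 t x + w.1 t x := rfl
    show frc y a (u + w).1 t x = frc y a u.1 t x + frc y a w.1 t x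
    unfold frc Wf
    rw [h1, h2, h3]; ring)
  map_smul' c u := Subtype.ext (funext fun t => funext fun x => by
    have h1 : dt (c • u).1 t x = c * dt u.1 t x := dt_xmul (fun _ => c) u.1 t x
    have h2 : Lop 7 ((c • u).1 t) x = c * Lop 7 (u.1 t) x := congrFun (Lop_cmul 7 c (u.1 t)) x
    have h3 : (c • u).1 t x = c * u.1 t x := rfl
    show frc y a (c • u).1 t x = c * frc y a u.1 t x
    unfold frc Wf
    rw [h1, h2, h3]; ring)

/-- the rescaled final slice -/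
def opOut (l : ℝ) (hl : 0 < l) : TS →ₗ[ℝ] TS where
  toFun u := ⟨fun _ x => l * u.1 (1 - l ^ 2) (l * x),
    Sm.ofX (contDiff_const.mul (((TS.sm u).slice _).comp (contDiff_const.mul contDiff_id))), by
    obtain ⟨b, hb⟩ := u.2.2
    exact ⟨b / l, fun t x hx => by
      simp only [hb _ (l * x) ((div_le_iff₀' hl).1 hx), mul_zero]⟩⟩
  map_add' u w := Subtype.ext (funext fun t => funext fun x => mul_add _ _ _)
  map_smul' a u := Subtype.ext (funext fun t => funext fun x => mul_left_comm _ _ _)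

/-- cell integrals -/
def cellF (c d : ℝ) : TS →ₗ[ℝ] ℝ where
  toFun u := ∫ x in c..d, x * Mop 7 (u.1 0) x
  map_add' u w := by
    have h : Mop 7 ((u + w).1 0) = fun x => Mop 7 (u.1 0) x + Mop 7 (w.1 0) x :=
      Mop_add 7 ((TS.sm u).slice 0) ((TS.sm w).slice 0)
    have c1 : Continuous fun x => x * Mop 7 (u.1 0) x :=
      continuous_id.mul (sm_Mop 7 ((TS.sm u).slice 0)).continuous
    have c2 : Continuous fun x => x * Mop 7 (w.1 0) x :=
      continuous_id.mul (sm_Mop 7 ((TS.sm w).slice 0)).continuous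
    rw [h, ← int_add c1 c2]
    simp only [mul_add]
  map_smul' a u := by
    have h : Mop 7 ((a • u).1 0) = fun x => a * Mop 7 (u.1 0) x := Mop_cmul 7 a (u.1 0)
    rw [h, RingHom.id_apply, smul_eq_mul, ← intervalIntegral.integral_const_mul]
    simp only [mul_left_comm]

variable {σ : ℝ → ℝ}

/-- the weighted fourth order operator -/
def opA (hσ : ContDiff ℝ ∞ σ) : TS →ₗ[ℝ] TS :=
  opMul (fun t x => x ^ 2 * yb (mss σ) t x) ((Sm.xpow 2).mul (sm_mss hσ).yb) ∘ₗ opL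

/-- the energy form -/
def eF (hσ : ContDiff ℝ ∞ σ) : TS →ₗ[ℝ] TS →ₗ[ℝ] ℝ :=
  (mulB.compl₁₂ (opA hσ) (opA hσ)).compr₂ I0

/-- the three components of the force norm -/
def opG (hσ : ContDiff ℝ ∞ σ) : Fin 3 → TS →ₗ[ℝ] TS :=
  ![opMul (fun _ x => x ^ 3) (Sm.xpow 3) ∘ₗ opDx ∘ₗ opDx ∘ₗ
      opF _ _ (sm_mss hσ).yb (sm_mss hσ).ab,
    opMul (fun _ x => x ^ 2) (Sm.xpow 2) ∘ₗ opDx ∘ₗ opF _ _ (sm_mss hσ).yb (sm_mss hσ).ab,
    opMul (fun _ x => x) Sm.x ∘ₗ opF _ _ (sm_mss hσ).yb (sm_mss hσ).ab]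

/-- the force form -/
def gF (hσ : ContDiff ℝ ∞ σ) (η : ℝ) : TS →ₗ[ℝ] TS →ₗ[ℝ] ℝ :=
  (mulB.compl₁₂ (opG hσ 0) (opG hσ 0) + mulB.compl₁₂ (opG hσ 1) (opG hσ 1) +
    mulB.compl₁₂ (opG hσ 2) (opG hσ 2)).compr₂ (I1 η)

lemma mulB_comm (u w : TS) : mulB u w = mulB w u :=
  Subtype.ext (funext fun _ => funext fun _ => mul_comm _ _)

lemma eF_symm (hσ : ContDiff ℝ ∞ σ) (u w : TS) : eF hσ u w = eF hσ w u := by
  show I0 (mulB _ _) = I0 (mulB _ _)
  rw [mulB_comm]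

lemma gF_symm (hσ : ContDiff ℝ ∞ σ) (η : ℝ) (u w : TS) : gF hσ η u w = gF hσ η w u := by
  show I1 η (mulB _ _ + mulB _ _ + mulB _ _) = I1 η (mulB _ _ + mulB _ _ + mulB _ _)
  rw [mulB_comm (opG hσ 0 u), mulB_comm (opG hσ 1 u), mulB_comm (opG hσ 2 u)]

lemma eF_eq' (hσ : ContDiff ℝ ∞ σ) (u : TS) (hb : 0 ≤ b) (h : ∀ x, b ≤ x → u.1 0 x = 0) :
    eF hσ u u = En 2 b (yb (mss σ) 0) (u.1 0) := by
  show ∫ x in Ioi (0 : ℝ), (x ^ 2 * yb (mss σ) 0 x * Lop 7 (u.1 0) x) *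
    (x ^ 2 * yb (mss σ) 0 x * Lop 7 (u.1 0) x) = _
  rw [int_Ioi hb fun x hx => by rw [van_Lop ((TS.sm u).slice 0) h x hx]; ring]
  refine intervalIntegral.integral_congr fun x _ => ?_
  ring

lemma eF_eq (hσ : ContDiff ℝ ∞ σ) (u : TS) {R : ℝ} (hR : 0 < R) (h : ∀ x, R ≤ x → u.1 0 x = 0) :
    eF hσ u u = En 2 (4 * R) (yb (bg σ R) 0) (u.1 0) := by
  rw [eF_eq' hσ u (show 0 ≤ 4 * R by linarith) fun x hx => h x (by linarith)]
  refine intervalIntegral.integral_congr fun x _ => ?_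
  rcases le_total x R with h1 | h1
  · rw [yb_bg_eq σ hR h1]
  · rw [van_Lop ((TS.sm u).slice 0) h x h1]; ring

lemma eF_zero (hσ : ContDiff ℝ ∞ σ) (u : TS) (h : ∀ x, 0 ≤ x → u.1 0 x = 0) : eF hσ u u = 0 := by
  rw [eF_eq' hσ u le_rfl h]
  exact intervalIntegral.integral_same

lemma gF_eq (hσ : ContDiff ℝ ∞ σ) (η : ℝ) (u : TS) {R : ℝ} (hR : 0 < R) (h : Van R u.1) :
    gF hσ η u u = ∫ t in (0 : ℝ)..η, Dn 2 (4 * R) (frc (yb (bg σ R)) (ab (bg σ R)) u.1 t) := by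
  have e : frc (yb (bg σ R)) (ab (bg σ R)) u.1 = frc (yb (mss σ)) (ab (mss σ)) u.1 := by
    funext t x
    rcases lt_or_ge x R with h1 | h1
    · unfold frc Wf
      rw [yb_bg_eq σ hR h1.le, ab_bg_eq σ hR h1]
    · rw [h.frc _ _ (TS.sm u) t x h1, h.frc _ _ (TS.sm u) t x h1]
  rw [e]
  set F := frc (yb (mss σ)) (ab (mss σ)) u.1 with hF
  have sF : Sm F := (sm_mss hσ).yb.frc (sm_mss hσ).ab (TS.sm u)
  have vF : Van (4 * R) F := (h.frc _ _ (TS.sm u)).mono (by linarith)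
  show ∫ t in (0 : ℝ)..η, ∫ x in Ioi (0 : ℝ),
    ((x ^ 3 * deriv (deriv (F t)) x) * (x ^ 3 * deriv (deriv (F t)) x) +
      (x ^ 2 * deriv (F t) x) * (x ^ 2 * deriv (F t) x) + (x * F t x) * (x * F t x)) = _
  refine intervalIntegral.integral_congr fun t _ => ?_
  have v1 := van_deriv (sF.slice t) (vF t)
  have v2 := van_deriv (sm_deriv (sF.slice t)) v1
  rw [int_Ioi (show 0 ≤ 4 * R by linarith) fun x hx => by
    rw [vF t x hx, v1 x hx, v2 x hx]; ring]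
  refine intervalIntegral.integral_congr fun x _ => ?_
  simp only [dn]
  ring

/-- the conclusion of the abstract shooting theorem in the present setting -/
def ShootP (hσ : ContDiff ℝ ∞ σ) : Prop :=
  ∃ (l ϑ : ℝ) (hl : 0 < l) (r : ℕ) (v : Fin r → TS) (C₀ δ : ℝ), 1 / 2 < l ∧ l < 1 ∧ l ≤ ϑ ^ 2 ∧
    0 < ϑ ∧ ϑ < 1 ∧ 0 < C₀ ∧ 0 < δ ∧
    ∀ (ε : ℝ) (x : ℕ → (Fin r → ℝ) → TS), 0 < ε →
      (∀ a, ‖a‖ ≤ 1 → eF hσ (x 0 a - ε • ∑ i, a i • v i) (x 0 a - ε • ∑ i, a i • v i) = 0) →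
      (∀ k a, ‖a‖ ≤ 1 →
        eF hσ (x (k + 1) a - opOut l hl (x k a)) (x (k + 1) a - opOut l hl (x k a)) = 0) →
      (∀ k a₀, ‖a₀‖ ≤ 1 → ∀ η : ℝ, 0 < η → ∃ ρ : ℝ, 0 < ρ ∧ ∀ a, ‖a‖ ≤ 1 → ‖a - a₀‖ < ρ →
        eF hσ (x k a - x k a₀) (x k a - x k a₀) < η) →
      (∀ k a, ‖a‖ ≤ 1 → (∀ j ≤ k, eF hσ (x j a) (x j a) ≤ (C₀ * ε * ϑ ^ j) ^ 2) →
        gF hσ (1 - l ^ 2) (x k a) (x k a) ≤ (δ * ε * ϑ ^ k) ^ 2) →
      ∃ a, ‖a‖ ≤ 1 ∧ ∀ k, eF hσ (x k a) (x k a) ≤ (C₀ * ε * ϑ ^ k) ^ 2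

theorem shootP (H : FAll) (hS : Shooting) (hσ : ContDiff ℝ ∞ σ) {M : ℝ} (hM : 1 ≤ M)
    (hB : ∀ R T : ℝ, 1 ≤ R → T < 3 / 4 → Bg (4 * R) T M (M / R ^ 3) (M / R ^ 2) (bg σ R))
    (hL : LinIneq M) : ShootP hσ := by
  obtain ⟨η, h, C, N, hη, hη', hh, hC, hL⟩ := hL
  obtain ⟨C6, hC6, h6⟩ := H.f6
  obtain ⟨C9, hC9, h9⟩ := H.f9
  set l := √(1 - η) with hl
  have l2 : l ^ 2 = 1 - η := Real.sq_sqrt (by linarith)
  have l0 : 0 ≤ l := Real.sqrt_nonneg _
  have l1 : 1 / 2 < l := by nlinarith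
  have l3 : l < 1 - η / 4 := by nlinarith
  have lη : 1 - l ^ 2 = η := by linarith
  have q0 : 0 < 1 - η / 4 := by linarith
  set θ := √(l / (1 - η / 4)) with hθ
  have θ2 : θ ^ 2 = l / (1 - η / 4) := Real.sq_sqrt (by positivity)
  have θ0 : 0 < θ := Real.sqrt_pos.2 (div_pos (by linarith) q0)
  have θ1 : θ < 1 := by
    have : l / (1 - η / 4) < 1 := (div_lt_one q0).2 l3
    nlinarith
  have hD : 0 ≤ (N : ℝ) * h := by positivity
  set K := C9 * h * ((N * h) ^ 2 * (C6 * M ^ 2)) with hK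
  have K0 : 0 ≤ K := by positivity
  have en : ∀ u : TS, 0 ≤ eF hσ u u := fun u => by
    obtain ⟨b, hb, hv⟩ := TS.van u 0
    rw [eF_eq' hσ u hb (hv 0)]
    exact En_nonneg 2 hb _ _
  have gn : ∀ u : TS, 0 ≤ gF hσ η u u := fun u => by
    obtain ⟨b, hb, hv⟩ := TS.van u 1
    rw [gF_eq hσ η u (by linarith) hv]
    exact intervalIntegral.integral_nonneg hη.le fun t _ => Dn_nonneg 2 (by linarith) _
  have hA : ∀ (i : Fin N) (u : TS), (cellF ((i : ℕ) * h) (((i : ℕ) + 1) * h) u) ^ 2 ≤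
      (K + 2 * C) * eF hσ u u := by
    intro i u
    obtain ⟨R, hR, hv⟩ := TS.van u (max 1 (N * h))
    have R1 : 1 ≤ R := (le_max_left _ _).trans hR
    have R2 : N * h ≤ R := (le_max_right _ _).trans hR
    have hb : 0 < 4 * R := by linarith
    have su := (TS.sm u).slice 0
    have hi : ((i : ℕ) + 1 : ℝ) * h ≤ N * h := by
      refine mul_le_mul_of_nonneg_right ?_ hh.le
      exact_mod_cast i.2
    have a1 := h9 (N * h) ((i : ℕ) * h) (((i : ℕ) + 1) * h) (u.1 0) (by positivity) (by linarith)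
      hi su
    have a2 : Dn 2 (N * h) (u.1 0) ≤ (N * h) ^ 2 * Dn 0 (N * h) (u.1 0) :=
      Dn_le_of_pt 2 0 hD su su fun x hx => by
        rw [pow_zero, one_mul]
        exact mul_le_mul_of_nonneg_right (pow_le_pow_left₀ hx.1.le hx.2.le 2) (dn_nonneg _ _)
    have a3 := Dn_mono_right 0 hD (show N * h ≤ 4 * R by linarith) su
    have a4 := h6 (4 * R) (u.1 0) hb su (hv 0 _ (by linarith)) (hv.dx (TS.sm u) 0 _ (by linarith))
    have a5 := ((hB R 0 R1 (by norm_num)).wt 0 ⟨le_rfl, le_rfl⟩).En_v hb hM su 2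
    rw [← eF_eq hσ u (by linarith) (hv 0)] at a5
    have e : ((i : ℕ) + 1 : ℝ) * h - (i : ℕ) * h = h := by ring
    rw [e] at a1
    calc _ ≤ _ := a1
      _ ≤ C9 * h * ((N * h) ^ 2 * (C6 * (M ^ 2 * eF hσ u u))) := by
          refine mul_le_mul_of_nonneg_left (a2.trans ?_) (by positivity)
          refine mul_le_mul_of_nonneg_left (a3.trans (a4.trans ?_)) (by positivity)
          exact mul_le_mul_of_nonneg_left a5 hC6.le
      _ = K * eF hσ u u := by rw [hK]; ring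
      _ ≤ _ := mul_le_mul_of_nonneg_right (by linarith) (en u)
  have l4 : 0 < l := by linarith
  have hO : ∀ u : TS, eF hσ (opOut l l4 u) (opOut l l4 u) ≤ θ ^ 2 * eF hσ u u +
      (K + 2 * C) * gF hσ η u u +
      (K + 2 * C) * ∑ i : Fin N, (cellF ((i : ℕ) * h) (((i : ℕ) + 1) * h) u) ^ 2 := by
    intro u
    obtain ⟨R, hR, hv⟩ := TS.van u (max 1 (N * h))
    have R1 : 1 ≤ R := (le_max_left _ _).trans hR
    have R2 : N * h ≤ R := (le_max_right _ _).trans hR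
    have hb : 0 < 4 * R := by linarith
    have a1 := hL (4 * R) _ _ _ u.1 hb (by linarith) (hB R η R1 hη') (TS.sm u)
      fun t => ⟨hv t _ (by linarith), hv.dx (TS.sm u) t _ (by linarith)⟩
    rw [← eF_eq hσ u (by linarith) (hv 0), ← gF_eq hσ η u (by linarith) hv] at a1
    have a2 := En_trans 2 σ R l1.le (u.1 (1 - l ^ 2))
    have a3 := eF_eq hσ (opOut l l4 u) (R := R / l) (by positivity) fun x hx => by
      show l * u.1 (1 - l ^ 2) (l * x) = 0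
      rw [hv _ _ ((div_le_iff₀' (by linarith)).1 hx), mul_zero]
    change _ = En 2 _ _ (fun x => l * u.1 (1 - l ^ 2) (l * x)) at a3
    rw [← a3, lη] at a2
    have a4 : eF hσ (opOut l l4 u) (opOut l l4 u) =
        l * En 2 (4 * R) (yb (bg σ R) η) (u.1 η) := by
      have : l ^ 2 ≠ 0 := by positivity
      refine mul_left_cancel₀ this ?_
      rw [a2]; ring
    rw [a4, θ2]
    have s0 : 0 ≤ ∑ i : Fin N, (cellF ((i : ℕ) * h) (((i : ℕ) + 1) * h) u) ^ 2 :=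
      Finset.sum_nonneg fun i _ => sq_nonneg _
    change _ ≤ _ + _ + C * ∑ i : Fin N, (cellF ((i : ℕ) * h) (((i : ℕ) + 1) * h) u) ^ 2 at a1
    have g0 := gn u
    generalize ∑ i : Fin N, (cellF ((i : ℕ) * h) (((i : ℕ) + 1) * h) u) ^ 2 = s at *
    generalize gF hσ η u u = g at *
    have a5 := mul_le_mul_of_nonneg_left a1 (show 0 ≤ l / (1 - η / 4) by positivity)
    have e : l / (1 - η / 4) * ((1 - η / 4) * En 2 (4 * R) (yb (bg σ R) η) (u.1 η)) =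
        l * En 2 (4 * R) (yb (bg σ R) η) (u.1 η) := by
      rw [← mul_assoc, div_mul_cancel₀ _ q0.ne']
    have a6 : l / (1 - η / 4) ≤ 1 := ((div_lt_one q0).2 l3).le
    have a7 := mul_le_mul_of_nonneg_right a6 (show 0 ≤ C * g + C * s by positivity)
    have a8 : 0 ≤ (K + C) * g := by positivity
    have a9 : 0 ≤ (K + C) * s := by positivity
    rw [e] at a5
    nlinarith
  obtain ⟨ϑ, r, v, C₀, δ, h1, h2, h3, h4, h5⟩ := hS TS TS (eF hσ) (gF hσ η) LinearMap.id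
    (opOut l l4) N (fun i => cellF ((i : ℕ) * h) (((i : ℕ) + 1) * h)) θ (K + 2 * C)
    (eF_symm hσ) en (gF_symm hσ η) gn θ0 θ1 (by linarith) hA hO
  refine ⟨l, ϑ, l4, r, v, C₀, δ, l1, by linarith, ?_, by linarith, h2, h3, h4, ?_⟩
  · have : l ≤ l / (1 - η / 4) := le_div_self l0 q0 (by linarith)
    nlinarith
  · rw [lη]; exact h5

end Vale.Agent.N264X.P264Z
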