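import Vale.Agent.N264X.E.Sm
import Mathlib.Analysis.SpecialFunctions.Sqrt

/-!
# P264: fixed-time bounds of the lower order and the nonlinear terms
-/

open scoped ContDiff Topology
open Set Filter MeasureTheory

noncomputable section

namespace Vale.Agent.N264X.P264Z

open Vale.Agent.P264Z

/-- scale invariant bound of a function and two derivatives at a point -/
def Tb (f : ℝ → ℝ) (x A : ℝ) : Prop :=
  |f x| ≤ A ∧ x * |deriv f x| ≤ A ∧ x ^ 2 * |deriv (deriv f) x| ≤ A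

lemma Tb.nonneg {f : ℝ → ℝ} {x A : ℝ} (h : Tb f x A) : 0 ≤ A := (abs_nonneg _).trans h.1

lemma Tb.mono {f : ℝ → ℝ} {x A B : ℝ} (h : Tb f x A) (hAB : A ≤ B) : Tb f x B :=
  ⟨h.1.trans hAB, h.2.1.trans hAB, h.2.2.trans hAB⟩

lemma Tb.mul {f g : ℝ → ℝ} {x A B : ℝ} (hf : ContDiff ℝ ∞ f) (hg : ContDiff ℝ ∞ g) (hx : 0 ≤ x)
    (h : Tb f x A) (k : Tb g x B) : Tb (fun z => f z * g z) x (4 * (A * B)) := by
  have hA := h.nonneg
  have hB := k.nonneg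
  obtain ⟨h0, h1, h2⟩ := h
  obtain ⟨k0, k1, k2⟩ := k
  have hAB : 0 ≤ A * B := mul_nonneg hA hB
  have hx2 : 0 ≤ x ^ 2 := sq_nonneg x
  have m00 : |f x| * |g x| ≤ A * B := mul_le_mul h0 k0 (abs_nonneg _) hA
  have m10 : x * |deriv f x| * |g x| ≤ A * B := mul_le_mul h1 k0 (abs_nonneg _) hA
  have m01 : |f x| * (x * |deriv g x|) ≤ A * B :=
    mul_le_mul h0 k1 (mul_nonneg hx (abs_nonneg _)) hA
  have m20 : x ^ 2 * |deriv (deriv f) x| * |g x| ≤ A * B := mul_le_mul h2 k0 (abs_nonneg _) hA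
  have m02 : |f x| * (x ^ 2 * |deriv (deriv g) x|) ≤ A * B :=
    mul_le_mul h0 k2 (mul_nonneg hx2 (abs_nonneg _)) hA
  have m11 : x * |deriv f x| * (x * |deriv g x|) ≤ A * B :=
    mul_le_mul h1 k1 (mul_nonneg hx (abs_nonneg _)) hA
  refine ⟨?_, ?_, ?_⟩
  · show |f x * g x| ≤ _
    rw [abs_mul]; linarith
  · rw [deriv_mul' hf hg]
    have : |deriv f x * g x + f x * deriv g x| ≤ |deriv f x| * |g x| + |f x| * |deriv g x| := by
      rw [← abs_mul, ← abs_mul]; exact abs_add_le _ _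
    have := mul_le_mul_of_nonneg_left this hx
    nlinarith
  · rw [deriv2_mul' hf hg]
    have : |deriv (deriv f) x * g x + 2 * deriv f x * deriv g x + f x * deriv (deriv g) x| ≤
        |deriv (deriv f) x| * |g x| + 2 * (|deriv f x| * |deriv g x|) +
          |f x| * |deriv (deriv g) x| := by
      rw [← abs_mul, ← abs_mul, ← abs_mul]
      have e : 2 * |deriv f x * deriv g x| = |2 * deriv f x * deriv g x| := by
        rw [mul_assoc, abs_mul 2, abs_two]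
      rw [e]
      exact (abs_add_le _ _).trans (by gcongr; exact abs_add_le _ _)
    have := mul_le_mul_of_nonneg_left this hx2
    nlinarith

lemma Tb.cmul {f : ℝ → ℝ} {x A : ℝ} (c : ℝ) (h : Tb f x A) (hx : 0 ≤ x) :
    Tb (fun z => c * f z) x (|c| * A) := by
  obtain ⟨h0, h1, h2⟩ := h
  have hc := abs_nonneg c
  refine ⟨?_, ?_, ?_⟩
  · show |c * f x| ≤ _
    rw [abs_mul]; gcongr
  · rw [deriv_cmul']
    show x * |c * deriv f x| ≤ _
    rw [abs_mul]; nlinarith [mul_le_mul_of_nonneg_left h1 hc]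
  · rw [deriv_cmul', deriv_cmul']
    show x ^ 2 * |c * deriv (deriv f) x| ≤ _
    rw [abs_mul]; nlinarith [mul_le_mul_of_nonneg_left h2 hc]

lemma F7a.tb (h7 : F7a) {a m : ℝ → ℝ} {x A : ℝ} (ha : ContDiff ℝ ∞ a) (hm : ContDiff ℝ ∞ m)
    (hx : 0 ≤ x) (h : Tb a x A) : dn (fun z => a z * m z) x ≤ 16 * A ^ 2 * dn m x :=
  h7 a m x A ha hm hx h.1 h.2.1 h.2.2

/-- fixed-time bounds of the coefficients of a background -/
structure Wt (b M : ℝ) (y a : ℝ → ℝ) : Prop where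
  sy : ContDiff ℝ ∞ y
  sa : ContDiff ℝ ∞ a
  y : ∀ x ∈ Icc 0 b, vw b x / M ≤ y x ∧ y x ≤ M * vw b x ∧ x * |deriv y x| ≤ M ∧
    x ^ 2 * |deriv (deriv y) x| ≤ M
  a : ∀ x ∈ Icc 0 b, Tb a x (M / (1 + x) ^ 2)

/-- the nonlinear term -/
def Fnl (y a u : ℝ → ℝ) (x : ℝ) : ℝ :=
  (2 * y x * (x * u x) - (x * u x) ^ 2) * Lop 7 u x - x * u x * (a x * u x)

lemma sm_Fnl {y a u : ℝ → ℝ} (hy : ContDiff ℝ ∞ y) (ha : ContDiff ℝ ∞ a) (hu : ContDiff ℝ ∞ u) :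
    ContDiff ℝ ∞ (Fnl y a u) := by
  unfold Fnl
  exact ((((contDiff_const.mul hy).mul (contDiff_id.mul hu)).sub
    ((contDiff_id.mul hu).pow 2)).mul (sm_Lop 7 hu)).sub ((contDiff_id.mul hu).mul (ha.mul hu))

variable {b M : ℝ} {y a u : ℝ → ℝ}

lemma Wt.y_nonneg (h : Wt b M y a) (hb : 0 < b) (hM : 1 ≤ M) {x : ℝ} (hx : x ∈ Icc 0 b) :
    0 ≤ y x :=
  (div_nonneg (vw_nonneg hb hx.2) (by linarith)).trans (h.y x hx).1

lemma Wt.tby (h : Wt b M y a) (hb : 0 < b) (hM : 1 ≤ M) {x : ℝ} (hx : x ∈ Icc 0 b) :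
    Tb y x M := by
  refine ⟨?_, (h.y x hx).2.2.1, (h.y x hx).2.2.2⟩
  rw [abs_of_nonneg (h.y_nonneg hb hM hx)]
  have := vw_le_one hb hx.1
  nlinarith [(h.y x hx).2.1]

lemma Wt.En_v (h : Wt b M y a) (hb : 0 < b) (hM : 1 ≤ M) (hu : ContDiff ℝ ∞ u) (p : ℕ) :
    En p b (vw b) u ≤ M ^ 2 * En p b y u := by
  refine En_le_of_weight p hb.le (sm_vw b).continuous h.sy.continuous hu fun x hx => ?_
  have h1 := (h.y x (Ioo_subset_Icc_self hx)).1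
  rw [div_le_iff₀ (by linarith)] at h1
  have h2 := vw_nonneg hb hx.2.le
  rw [← mul_pow]
  exact pow_le_pow_left₀ h2 (by linarith) 2

lemma pow_div_le {x : ℝ} (hx : 0 ≤ x) {p : ℕ} (hp : p = 2 ∨ p = 3) (K : ℝ) :
    x ^ p * (K / (1 + x) ^ 2) ^ 2 ≤ K ^ 2 := by
  have h1 : x ^ p ≤ (1 + x) ^ 4 := by
    rcases hp with rfl | rfl <;> nlinarith [sq_nonneg x, pow_nonneg hx 3, pow_nonneg hx 4]
  have h2 : (0 : ℝ) < (1 + x) ^ 4 := by positivity
  have h3 : (K / (1 + x) ^ 2) ^ 2 = K ^ 2 / (1 + x) ^ 4 := by rw [div_pow]; ring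
  rw [h3, ← mul_div_assoc, div_le_iff₀ h2, mul_comm]
  exact mul_le_mul_of_nonneg_left h1 (sq_nonneg K)

/-- a coefficient of size `K/(1+x)²` -/
lemma Dn_coef (h7 : F7a) {c : ℝ → ℝ} {K : ℝ} (hb : 0 < b) (hc : ContDiff ℝ ∞ c)
    (hu : ContDiff ℝ ∞ u) (hK : ∀ x ∈ Icc 0 b, Tb c x (K / (1 + x) ^ 2)) {p : ℕ}
    (hp : p = 2 ∨ p = 3) : Dn p b (fun x => c x * u x) ≤ 16 * K ^ 2 * Dn 0 b u := by
  refine Dn_le_of_pt p 0 hb.le (hc.mul hu) hu fun x hx => ?_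
  have h1 := h7.tb hc hu hx.1.le (hK x (Ioo_subset_Icc_self hx))
  have h2 := pow_div_le hx.1.le hp K
  have h3 := dn_nonneg u x
  have h4 := mul_le_mul_of_nonneg_left h1 (pow_nonneg hx.1.le p)
  have h5 := mul_le_mul_of_nonneg_right h2 h3
  rw [pow_zero, one_mul]
  nlinarith

lemma Wt.tb_a2 (h : Wt b M y a) (hb : 0 < b) (hM : 1 ≤ M) {x : ℝ} (hx : x ∈ Icc 0 b) :
    Tb (fun z => 2 * (y z * a z)) x (8 * M ^ 2 / (1 + x) ^ 2) := by
  have := (Tb.mul h.sy h.sa hx.1 (h.tby hb hM hx) (h.a x hx)).cmul 2 hx.1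
  refine this.mono (le_of_eq ?_)
  rw [abs_two]; ring

/-- the lower order term -/
lemma Dn_lin (h6 : F6) (h7 : F7a) (M : ℝ) (hM : 1 ≤ M) : ∃ C : ℝ, 0 < C ∧
    ∀ (p : ℕ) (b : ℝ) (y a u : ℝ → ℝ), (p = 2 ∨ p = 3) → 0 < b → Wt b M y a → ContDiff ℝ ∞ u →
      u b = 0 → deriv u b = 0 →
      Dn p b (fun x => 2 * (y x * a x) * u x) ≤ C * En 2 b y u := by
  obtain ⟨C6, hC6, h6⟩ := h6
  refine ⟨16 * (8 * M ^ 2) ^ 2 * (C6 * M ^ 2), by positivity, ?_⟩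
  intro p b y a u hp hb h hu h0 h1
  have h2 := Dn_coef h7 hb (contDiff_const.mul (h.sy.mul h.sa)) hu
    (fun x hx => h.tb_a2 hb hM hx) hp
  have h3 := h6 b u hb hu h0 h1
  have h4 := h.En_v hb hM hu 2
  calc _ ≤ _ := h2
    _ ≤ 16 * (8 * M ^ 2) ^ 2 * (C6 * (M ^ 2 * En 2 b y u)) := by
        gcongr
        exact h3.trans (by gcongr)
    _ = _ := by ring

/-- sup bounds for `μ = x u` -/
lemma tb_mu (h5 : F5) : ∃ C : ℝ, 0 < C ∧ ∀ (b : ℝ) (u : ℝ → ℝ), 0 < b → ContDiff ℝ ∞ u →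
    u b = 0 → deriv u b = 0 → ∀ x ∈ Icc 0 b,
      |x * u x| ≤ √(C * En 3 b (vw b) u) * vw b x ∧
      Tb (fun z => z * u z) x (3 * √(C * En 3 b (vw b) u)) := by
  obtain ⟨C, hC, h5⟩ := h5
  refine ⟨C, hC, fun b u hb hu h0 h1 x hx => ?_⟩
  obtain ⟨k0, k1, k2, -⟩ := h5 b u hb hu h0 h1 x hx
  set d := √(C * En 3 b (vw b) u) with hd
  have hE : 0 ≤ C * En 3 b (vw b) u := mul_nonneg hC.le (En_nonneg 3 hb.le _ _)
  have hd0 : 0 ≤ d := Real.sqrt_nonneg _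
  have hv0 := vw_nonneg hb hx.2
  have hv1 := vw_le_one hb hx.1
  have a0 : |x * u x| ≤ d * vw b x := by
    refine abs_le_of_sq_le_sq' ?_ (mul_nonneg hd0 hv0) |> abs_le.2
    rw [mul_pow d, hd, Real.sq_sqrt hE]; linarith
  have a0' : |x * u x| ≤ d := a0.trans (by nlinarith)
  have a1 : |x ^ 2 * deriv u x| ≤ d := Real.abs_le_sqrt k1
  have a2 : |x ^ 3 * deriv (deriv u) x| ≤ d := Real.abs_le_sqrt k2
  have hid : ContDiff ℝ ∞ (fun z : ℝ => z) := contDiff_id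
  refine ⟨a0, a0'.trans (by linarith), ?_, ?_⟩
  · rw [deriv_mul' hid hu]
    simp only [deriv_id'', one_mul]
    rw [← abs_of_nonneg hx.1, ← abs_mul, abs_of_nonneg hx.1]
    have : x * (u x + x * deriv u x) = x * u x + x ^ 2 * deriv u x := by ring
    rw [this]
    exact (abs_add_le _ _).trans (by linarith)
  · rw [deriv2_mul' hid hu]
    have e1 : deriv (fun z : ℝ => z) = fun _ => 1 := by funext z; simp
    simp only [e1, deriv_const', zero_mul, zero_add, mul_one]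
    rw [← abs_of_nonneg (sq_nonneg x), ← abs_mul]
    have : x ^ 2 * (2 * deriv u x + x * deriv (deriv u) x) =
        2 * (x ^ 2 * deriv u x) + x ^ 3 * deriv (deriv u) x := by ring
    rw [this]
    refine (abs_add_le _ _).trans ?_
    rw [abs_mul 2, abs_two]; linarith

/-- bounds for `G = 2 y μ - μ²` -/
lemma G_bounds {μ : ℝ → ℝ} {x d v : ℝ} (hy : ContDiff ℝ ∞ y) (hμ : ContDiff ℝ ∞ μ) (hx : 0 ≤ x)
    (hv0 : 0 ≤ v) (hv1 : v ≤ 1) (hd : 0 ≤ d) (hM : 0 ≤ M) (y0 : |y x| ≤ M * v) (ty : Tb y x M)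
    (m0 : |μ x| ≤ d * v) (tm : Tb μ x (3 * d)) :
    |2 * y x * μ x - μ x ^ 2| ≤ (24 * M * d + 36 * d ^ 2) * v ^ 2 ∧
    x * |deriv (fun z => 2 * y z * μ z - μ z ^ 2) x| ≤ (24 * M * d + 36 * d ^ 2) * v ∧
    x ^ 2 * |deriv (deriv fun z => 2 * y z * μ z - μ z ^ 2) x| ≤ 24 * M * d + 36 * d ^ 2 := by
  have e : (fun z => 2 * y z * μ z - μ z ^ 2) = fun z => 2 * (y z * μ z) - μ z * μ z := by
    funext z; ring
  have hMd : 0 ≤ M * d := mul_nonneg hM hd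
  have hdd : 0 ≤ d ^ 2 := sq_nonneg d
  refine ⟨?_, ?_, ?_⟩
  · have h1 : |y x * μ x| ≤ M * v * (d * v) := by
      rw [abs_mul]; exact mul_le_mul y0 m0 (abs_nonneg _) (mul_nonneg hM hv0)
    have h2 : |μ x ^ 2| ≤ (d * v) ^ 2 := by
      rw [abs_pow]; exact pow_le_pow_left₀ (abs_nonneg _) m0 2
    have h3 : |2 * y x * μ x - μ x ^ 2| ≤ 2 * |y x * μ x| + |μ x ^ 2| := by
      refine (abs_sub _ _).trans ?_
      rw [mul_assoc, abs_mul 2, abs_two]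
    have hv2 : 0 ≤ v ^ 2 := sq_nonneg v
    nlinarith [mul_nonneg hMd hv2, mul_nonneg hdd hv2]
  · rw [e, deriv_sub' (contDiff_const.mul (hy.mul hμ)) (hμ.mul hμ), deriv_cmul', deriv_mul' hy hμ,
      deriv_mul' hμ hμ]
    have h1 : x * |deriv y x| * |μ x| ≤ M * (d * v) := mul_le_mul ty.2.1 m0 (abs_nonneg _) hM
    have h2 : |y x| * (x * |deriv μ x|) ≤ M * v * (3 * d) :=
      mul_le_mul y0 tm.2.1 (mul_nonneg hx (abs_nonneg _)) (mul_nonneg hM hv0)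
    have h3 : |μ x| * (x * |deriv μ x|) ≤ d * v * (3 * d) :=
      mul_le_mul m0 tm.2.1 (mul_nonneg hx (abs_nonneg _)) (mul_nonneg hd hv0)
    have h4 : |2 * (deriv y x * μ x + y x * deriv μ x) - (deriv μ x * μ x + μ x * deriv μ x)| ≤
        2 * (|deriv y x| * |μ x| + |y x| * |deriv μ x|) + 2 * (|μ x| * |deriv μ x|) := by
      have e2 : deriv μ x * μ x + μ x * deriv μ x = 2 * (μ x * deriv μ x) := by ring
      rw [e2]
      refine (abs_sub _ _).trans ?_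
      rw [abs_mul 2, abs_mul 2, abs_two, abs_mul (μ x), ← abs_mul (deriv y x), ← abs_mul (y x)]
      gcongr
      exact abs_add_le _ _
    have h5 := mul_le_mul_of_nonneg_left h4 hx
    nlinarith [mul_nonneg hMd hv0, mul_nonneg hdd hv0]
  · have t1 := ((Tb.mul hy hμ hx ty tm).cmul 2 hx).2.2
    have t2 := (Tb.mul hμ hμ hx tm tm).2.2
    rw [e, deriv_sub' (contDiff_const.mul (hy.mul hμ)) (hμ.mul hμ),
      deriv_sub' (sm_deriv (contDiff_const.mul (hy.mul hμ))) (sm_deriv (hμ.mul hμ))]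
    have h5 := mul_le_mul_of_nonneg_left (abs_sub (deriv (deriv fun z => 2 * (y z * μ z)) x)
      (deriv (deriv fun z => μ z * μ z) x)) (sq_nonneg x)
    rw [abs_two] at t1
    nlinarith

/-- the nonlinear term -/
lemma Dn_Fnl (h4 : F4) (h5 : F5) (h6 : F6) (h7 : F7a) (h7b : F7b) (M : ℝ) (hM : 1 ≤ M) :
    ∃ C : ℝ, 0 < C ∧
    ∀ (p : ℕ) (b : ℝ) (y a u : ℝ → ℝ), (p = 2 ∨ p = 3) → 0 < b → Wt b M y a → ContDiff ℝ ∞ u →
      u b = 0 → deriv u b = 0 → En 3 b y u ≤ 1 →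
      Dn p b (Fnl y a u) ≤
        C * En 3 b y u * (Dn p b (fun x => y x ^ 2 * Lop 7 u x) + En 2 b y u) := by
  obtain ⟨C4, hC4, h4⟩ := h4 M hM
  obtain ⟨C5, hC5, h5⟩ := tb_mu h5
  obtain ⟨C6, hC6, h6⟩ := h6
  set K : ℝ := 24 * M + 36 * √(C5 * M ^ 2) with hK
  have hK0 : 0 < K := by positivity
  refine ⟨2 * (16 * K ^ 2 * (C5 * M ^ 2) * C4) +
    2 * (16 * (12 * M) ^ 2 * (C5 * M ^ 2) * (C6 * M ^ 2)), by positivity, ?_⟩
  intro p b y a u hp hb h hu h0 h1 hE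
  set E3 := En 3 b y u with hE3
  set d := √(C5 * En 3 b (vw b) u) with hd
  have hE30 : 0 ≤ E3 := En_nonneg 3 hb.le _ _
  have hEv := h.En_v hb hM hu 3
  have hd0 : 0 ≤ d := Real.sqrt_nonneg _
  have hd2 : d ^ 2 ≤ C5 * M ^ 2 * E3 := by
    rw [hd, Real.sq_sqrt (mul_nonneg hC5.le (En_nonneg 3 hb.le _ _)), mul_assoc]
    gcongr
  have hd1 : d ≤ √(C5 * M ^ 2) := by
    refine Real.le_sqrt_of_sq_le (hd2.trans ?_)
    have : 0 ≤ C5 * M ^ 2 := by positivity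
    nlinarith
  have hμ : ContDiff ℝ ∞ fun z => z * u z := contDiff_id.mul hu
  have hG : ContDiff ℝ ∞ fun z => 2 * y z * (z * u z) - (z * u z) ^ 2 :=
    ((contDiff_const.mul h.sy).mul hμ).sub (hμ.pow 2)
  have hQ := sm_Lop 7 hu
  have hKd : 24 * M * d + 36 * d ^ 2 ≤ K * d := by rw [hK]; nlinarith
  -- first part
  have p1 : Dn p b (fun x => (2 * y x * (x * u x) - (x * u x) ^ 2) * Lop 7 u x) ≤
      16 * (K * d) ^ 2 * Dh p b (Lop 7 u) := by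
    unfold Dn Dh
    rw [← intervalIntegral.integral_const_mul]
    refine integral_mono_Ioo hb.le (cont_Dn p (hG.mul hQ))
      (continuous_const.mul (cont_Dh p b hQ)) fun x hx => ?_
    have hx' := Ioo_subset_Icc_self hx
    have hv0 := vw_nonneg hb hx'.2
    obtain ⟨g0, g1, g2⟩ := G_bounds h.sy hμ hx'.1 hv0 (vw_le_one hb hx'.1) hd0
      (by linarith) (by rw [abs_of_nonneg (h.y_nonneg hb hM hx')]; exact (h.y x hx').2.1)
      (h.tby hb hM hx') (h5 b u hb hu h0 h1 x hx').1 (h5 b u hb hu h0 h1 x hx').2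
    have := h7b _ _ b x (K * d) hG hQ hx'.1 hx'.2 hb
      (g0.trans (mul_le_mul_of_nonneg_right hKd (sq_nonneg _)))
      (g1.trans (mul_le_mul_of_nonneg_right hKd hv0)) (g2.trans hKd)
    have := mul_le_mul_of_nonneg_left this (pow_nonneg hx'.1 p)
    linarith
  have p1' := h4 p b y (Lop 7 u) hp hb h.sy hQ h.y
  -- second part
  have p2 : Dn p b (fun x => (x * u x * a x) * u x) ≤ 16 * (12 * M * d) ^ 2 * Dn 0 b u := by
    refine Dn_coef h7 hb (hμ.mul h.sa) hu (fun x hx => ?_) hp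
    refine (Tb.mul hμ h.sa hx.1 (h5 b u hb hu h0 h1 x hx).2 (h.a x hx)).mono (le_of_eq ?_)
    rw [← hd]; ring
  have p2' := (h6 b u hb hu h0 h1).trans (mul_le_mul_of_nonneg_left (h.En_v hb hM hu 2) hC6.le)
  have e : Fnl y a u = fun x => (2 * y x * (x * u x) - (x * u x) ^ 2) * Lop 7 u x -
      (x * u x * a x) * u x := by
    funext x; unfold Fnl; ring
  have p3 := Dn_sub_le p hb.le (hG.mul hQ) ((hμ.mul h.sa).mul hu)
  rw [e]
  set D := Dn p b (fun x => y x ^ 2 * Lop 7 u x) with hD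
  set E2 := En 2 b y u with hE2
  have hD0 : 0 ≤ D := Dn_nonneg p hb.le _
  have hE20 : 0 ≤ E2 := En_nonneg 2 hb.le _ _
  have q1 : 16 * (K * d) ^ 2 * Dh p b (Lop 7 u) ≤ 16 * K ^ 2 * (C5 * M ^ 2) * C4 * E3 * D := by
    calc _ = 16 * K ^ 2 * d ^ 2 * Dh p b (Lop 7 u) := by ring
      _ ≤ 16 * K ^ 2 * (C5 * M ^ 2 * E3) * (C4 * D) := by
          gcongr
          exact Dh_nonneg p hb.le _
      _ = _ := by ring
  have q2 : 16 * (12 * M * d) ^ 2 * Dn 0 b u ≤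
      16 * (12 * M) ^ 2 * (C5 * M ^ 2) * (C6 * M ^ 2) * E3 * E2 := by
    calc _ = 16 * (12 * M) ^ 2 * d ^ 2 * Dn 0 b u := by ring
      _ ≤ 16 * (12 * M) ^ 2 * (C5 * M ^ 2 * E3) * (C6 * (M ^ 2 * E2)) := by
          gcongr
          exact Dn_nonneg 0 hb.le _
      _ = _ := by ring
  have c1 : 0 ≤ 16 * K ^ 2 * (C5 * M ^ 2) * C4 := by positivity
  have c2 : 0 ≤ 16 * (12 * M) ^ 2 * (C5 * M ^ 2) * (C6 * M ^ 2) := by positivity
  set α := 16 * K ^ 2 * (C5 * M ^ 2) * C4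
  set β := 16 * (12 * M) ^ 2 * (C5 * M ^ 2) * (C6 * M ^ 2)
  nlinarith [mul_nonneg (mul_nonneg c1 hE30) hE20, mul_nonneg (mul_nonneg c2 hE30) hD0]

end Vale.Agent.N264X.P264Z
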