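import Vale.Agent.N264X.E.Bg
import Vale.Agent.N264X.E.Frc

/-!
# P264: one step of the renormalization
-/

open scoped ContDiff Topology
open Set Filter MeasureTheory

noncomputable section

namespace Vale.Agent.N264X.P264Z

open Vale.Agent.P264Z

/-- parabolic rescaling about the point `(1,0)` -/
def rs (μ : ℝ) (m : ℝ → ℝ → ℝ) (t x : ℝ) : ℝ := μ * m (1 - μ ^ 2 + μ ^ 2 * t) (μ * x)

lemma Sm.rs {m : ℝ → ℝ → ℝ} (h : Sm m) (μ : ℝ) : Sm (rs μ m) :=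
  contDiff_const.mul (ContDiff.comp h
    ((contDiff_const.add (contDiff_const.mul contDiff_fst)).prodMk
      (contDiff_const.mul contDiff_snd)))

lemma Sol_rescale {b μ T : ℝ} {m : ℝ → ℝ → ℝ} (h : Sol 7 b 1 m) (hμ : 0 < μ) (hμ1 : μ ≤ 1)
    (hT : T ≤ 1) : Sol 7 (b / μ) T (rs μ m) := by
  have hs : Sm m := h.smooth
  have hμ2 : μ ^ 2 ≤ 1 := pow_le_one₀ hμ.le hμ1
  have hμ3 : 0 < μ ^ 2 := by positivity
  refine ⟨hs.rs μ, fun t ht => ?_, fun t ht x hx => ?_⟩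
  · have ha := h.adm (1 - μ ^ 2 + μ ^ 2 * t) ⟨by nlinarith [ht.1], by nlinarith [ht.2]⟩
    have e : μ * (b / μ) = b := by field_simp
    refine ⟨fun x hx hxb => ?_, ?_, ?_⟩
    · have := ha.pos (μ * x) (by positivity) (by rwa [lt_div_iff₀' hμ] at hxb)
      unfold rs; linarith
    · unfold rs; rw [e, ha.val]; field_simp
    · have e2 : rs μ m t = fun x => μ * (fun x => m (1 - μ ^ 2 + μ ^ 2 * t) (μ * x)) x := rfl
      rw [e2, deriv_cmul', deriv_scale]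
      simp only
      rw [e, ha.der]; simp
  · have hp := h.pde (1 - μ ^ 2 + μ ^ 2 * t) ⟨by nlinarith [ht.1], by nlinarith [ht.2]⟩ (μ * x)
      ⟨mul_pos hμ hx.1, (lt_div_iff₀' hμ).1 hx.2⟩
    have h1 : HasDerivAt (fun s : ℝ => 1 - μ ^ 2 + μ ^ 2 * s) (μ ^ 2) t := by
      simpa using ((hasDerivAt_id t).const_mul (μ ^ 2)).const_add (1 - μ ^ 2)
    have h2 := (((hs.hasDerivAt_t (1 - μ ^ 2 + μ ^ 2 * t) (μ * x)).comp t h1).const_mul μ).deriv
    have h3 : Lop 7 (rs μ m t) x = μ ^ 3 * Lop 7 (m (1 - μ ^ 2 + μ ^ 2 * t)) (μ * x) :=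
      congrFun (Lop_rescale 7 μ _) x
    refine Eq.trans h2 ?_
    rw [h3]
    unfold dt
    rw [hp]
    unfold rs
    ring

lemma rs_step (μ l : ℝ) (m : ℝ → ℝ → ℝ) (x : ℝ) :
    l * rs μ m (1 - l ^ 2) (l * x) = rs (μ * l) m 0 x := by
  unfold rs
  have e1 : 1 - μ ^ 2 + μ ^ 2 * (1 - l ^ 2) = 1 - (μ * l) ^ 2 + (μ * l) ^ 2 * 0 := by ring
  rw [e1, ← mul_assoc μ l x]; ring

lemma rs_one (m : ℝ → ℝ → ℝ) : rs 1 m = m := by
  funext t x; unfold rs; simp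

variable {σ : ℝ → ℝ}

lemma En_trans (p : ℕ) (σ : ℝ → ℝ) (R : ℝ) {l : ℝ} (hl : 1 / 2 ≤ l) (u : ℝ → ℝ) :
    l ^ p * En p (4 * (R / l)) (yb (bg σ (R / l)) 0) (fun x => l * u (l * x)) =
      l ^ 3 * En p (4 * R) (yb (bg σ R) (1 - l ^ 2)) u := by
  rw [← En_rescale p (4 * R) (show 0 < l by linarith), mul_div_assoc]
  congr 2
  funext x
  unfold yb
  rw [← bg_eta σ R hl]; ring

/-- the cut-off difference -/
def xc (σ : ℝ → ℝ) (R : ℝ) (m : ℝ → ℝ → ℝ) (t x : ℝ) : ℝ := cut (R / 2) x * df m (bg σ R) t x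

lemma sm_xc (hσ : ContDiff ℝ ∞ σ) (R : ℝ) {m : ℝ → ℝ → ℝ} (hm : Sm m) : Sm (xc σ R m) :=
  (Sm.ofX (sm_cut _)).mul (hm.df (sm_bg hσ R))

lemma xc_zero (σ : ℝ → ℝ) {R x : ℝ} (hR : 0 < R) (hx : R ≤ x) (m : ℝ → ℝ → ℝ) (t : ℝ) :
    xc σ R m t x = 0 := by
  unfold xc; rw [cut_zero (by linarith) (by linarith), zero_mul]

lemma df_step (σ : ℝ → ℝ) (R μ : ℝ) {l : ℝ} (hl : 1 / 2 ≤ l) (m : ℝ → ℝ → ℝ) :
    df (rs (μ * l) m) (bg σ (R / l)) 0 =
      fun x => l * df (rs μ m) (bg σ R) (1 - l ^ 2) (l * x) := by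
  funext x
  unfold df
  rw [← rs_step, ← bg_eta σ R hl]; ring

lemma xc_step (σ : ℝ → ℝ) (R μ : ℝ) {l : ℝ} (hl : 1 / 2 ≤ l) (m : ℝ → ℝ → ℝ) (x : ℝ) :
    xc σ (R / l) (rs (μ * l) m) 0 x = l * xc σ R (rs μ m) (1 - l ^ 2) (l * x) := by
  unfold xc
  rw [df_step σ R μ hl, div_right_comm, cut_scale]; ring

lemma tb_cut (h10 : F10) : ∃ C : ℝ, 1 ≤ C ∧ ∀ B x : ℝ, 0 < B → 0 ≤ x → Tb (cut B) x C := by
  obtain ⟨C, hC, h⟩ := h10
  refine ⟨C, hC, fun B x hB hx => ⟨?_, ?_, ?_⟩⟩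
  · simpa using h B x 0 hB hx (by norm_num)
  · simpa using h B x 1 hB hx (by norm_num)
  · simpa [iteratedDeriv_succ] using h B x 2 hB hx (by norm_num)

lemma En2_le_cut {b B : ℝ} (hb : 0 ≤ b) (hB : 0 < B) {y u : ℝ → ℝ} (hy : Continuous y)
    (hu : ContDiff ℝ ∞ u) :
    En 2 b y u ≤ En 2 b y (fun x => cut B x * u x) + 1 / B * En 3 b y u := by
  unfold En
  have c1 := cont_En 2 hy ((sm_cut B).mul hu)
  have c2 : Continuous fun x => 1 / B * (x ^ (3 + 2) * y x ^ 2 * Lop 7 u x ^ 2) :=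
    continuous_const.mul (cont_En 3 hy hu)
  rw [← intervalIntegral.integral_const_mul, ← int_add c1 c2]
  refine integral_mono_Ioo hb (cont_En 2 hy hu) (c1.add c2) fun x hx => ?_
  have hx0 := hx.1
  rcases lt_or_ge x B with h | h
  · have e : (fun z => cut B z * u z) =ᶠ[𝓝 x] u := by
      filter_upwards [Iio_mem_nhds h] with z hz
      rw [cut_one hB (le_of_lt hz), one_mul]
    rw [(Lop_evEq 7 e).eq_of_nhds]
    have : 0 ≤ 1 / B * (x ^ (3 + 2) * y x ^ 2 * Lop 7 u x ^ 2) := by positivity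
    linarith
  · have h2 : 1 ≤ x / B := (one_le_div hB).2 h
    have h3 : 0 ≤ x ^ (2 + 2) * y x ^ 2 * Lop 7 u x ^ 2 := by positivity
    have h4 : 1 / B * (x ^ (3 + 2) * y x ^ 2 * Lop 7 u x ^ 2) =
        x / B * (x ^ (2 + 2) * y x ^ 2 * Lop 7 u x ^ 2) := by ring
    have h5 := mul_le_mul_of_nonneg_right h2 h3
    rw [h4]
    exact le_add_of_nonneg_of_le (by positivity) (by linarith)

lemma frc_xc (hσ : Shrinker 7 σ) {R η : ℝ} (hR : 0 < R) (hη : 0 < η) (hη' : η < 3 / 4)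
    {m : ℝ → ℝ → ℝ} (hm : Sol 7 (4 * R) η m) {t x : ℝ} (ht : t ∈ Icc 0 η)
    (hx : x ∈ Icc 0 (4 * R)) :
    frc (yb (bg σ R)) (ab (bg σ R)) (xc σ R m) t x =
      cut (R / 2) x * Fnl (yb (bg σ R) t) (ab (bg σ R) t) (df m (bg σ R) t) x +
        yb (bg σ R) t x * yb (bg σ R) t x * com (R / 2) (df m (bg σ R) t) x := by
  have h1 := df_eq hm (by linarith) hη (sm_bg hσ.smooth R) ht hx
  have h2 : cut (R / 2) x * res (bg σ R) t x = 0 := by
    rcases lt_or_ge x R with h | h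
    · rw [res_bg_zero hσ ht.1 (by linarith [ht.2]) hx.1 h, mul_zero]
    · rw [cut_zero (by linarith) (by linarith), zero_mul]
  have h3 : dt (xc σ R m) t x = cut (R / 2) x * dt (df m (bg σ R)) t x := dt_xmul _ _ t x
  have h4 : Lop 7 (xc σ R m t) x =
      com (R / 2) (df m (bg σ R) t) x + cut (R / 2) x * Lop 7 (df m (bg σ R) t) x := by
    unfold com; rw [sub_add_cancel]; rfl
  unfold frc
  rw [h3]
  unfold Wf at h1 ⊢
  rw [h4]
  unfold xc
  linear_combination cut (R / 2) x * h1 - h2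

lemma step_alg {α β Cs C4 M R A E I2 I3 η : ℝ} (α0 : 0 < α) (β0 : 0 < β) (hCs : 1 ≤ Cs)
    (hC4 : 0 < C4) (hR0 : 0 < R) (hA0 : 0 ≤ A) (hE0 : 0 ≤ E) (hη1 : η ≤ 1)
    (h2 : I2 ≤ Cs * A) (h3 : I3 ≤ 8 * (E + Cs * A)) :
    α * (E + Cs * A) * I2 + β * (C4 * (2 / R)) * I3 +
      η * (α * (E + Cs * A) * (Cs * A) + β * (2 / R * (M ^ 2 * (E + Cs * A)))) ≤
      Cs * (1 + (2 * α * Cs + β * (2 * M ^ 2 + 16 * C4))) * (E + A) * (A + 1 / R) := by
  have d5 : E + Cs * A ≤ Cs * (E + A) := by nlinarith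
  have hS0 : 0 ≤ E + Cs * A := by positivity
  generalize E + Cs * A = S at *
  have d1 := mul_le_mul_of_nonneg_left h2 (show 0 ≤ α * S by positivity)
  have d3 := mul_le_mul_of_nonneg_left h3 (show 0 ≤ β * (C4 * (2 / R)) by positivity)
  have d4 : η * (α * S * (Cs * A) + β * (2 / R * (M ^ 2 * S))) ≤
      α * S * (Cs * A) + β * (2 / R * (M ^ 2 * S)) :=
    mul_le_of_le_one_left (by positivity) hη1
  have e : 2 / R = 2 * (1 / R) := by ring
  rw [e] at d3 d4 ⊢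
  have hR1 : 0 < 1 / R := by positivity
  generalize 1 / R = r at *
  have d6 : 2 * α * Cs * A + β * (2 * M ^ 2 + 16 * C4) * r ≤
      (1 + (2 * α * Cs + β * (2 * M ^ 2 + 16 * C4))) * (A + r) := by
    have : 0 ≤ 2 * α * Cs * r := by positivity
    have : 0 ≤ β * (2 * M ^ 2 + 16 * C4) * A := by positivity
    nlinarith
  have d7 := mul_le_mul d5 d6 (by positivity) (by positivity)
  nlinarith

/-- the statement of one step -/
def StepP (σ : ℝ → ℝ) (M C δ : ℝ) : Prop :=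
  ∀ (R η A E : ℝ) (m : ℝ → ℝ → ℝ), 2 ≤ R → 0 < η → η < 3 / 4 → Sol 7 (4 * R) η m →
    En 3 (4 * R) (yb (bg σ R) 0) (df m (bg σ R) 0) ≤ E →
    En 2 (4 * R) (yb (bg σ R) 0) (xc σ R m 0) + 2 * E / R + 2 * M / R ^ 2 ≤ A → A + E ≤ δ →
    En 3 (4 * R) (yb (bg σ R) η) (df m (bg σ R) η) ≤ E + C * A ∧
    (∫ t in (0 : ℝ)..η, Dn 2 (4 * R) (frc (yb (bg σ R)) (ab (bg σ R)) (xc σ R m) t)) ≤
      C * (E + A) * (A + 1 / R)

theorem step (H : FAll) (hσ : Shrinker 7 σ) {M : ℝ} (hM : 1 ≤ M)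
    (hB : ∀ R T : ℝ, 1 ≤ R → T < 3 / 4 → Bg (4 * R) T M (M / R ^ 3) (M / R ^ 2) (bg σ R)) :
    ∃ C δ : ℝ, 1 ≤ C ∧ 0 < δ ∧ StepP σ M C δ := by
  obtain ⟨Cs, δ, hCs, hδ, hs⟩ := stab H M hM
  obtain ⟨C2, hC2, h2⟩ := Dn_Fnl H.f4 H.f5 H.f6 H.f7a H.f7b M hM
  obtain ⟨C4, hC4, h4⟩ := H.f4 M hM
  obtain ⟨C10, hC10, h10⟩ := tb_cut H.f10
  obtain ⟨C11, hC11, h11⟩ := H.f11
  set α : ℝ := 32 * C10 ^ 2 * C2 with hα
  set β : ℝ := 32 * (4 * (M * M)) ^ 2 * C11 with hβ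
  have α0 : 0 < α := by positivity
  have β0 : 0 < β := by positivity
  set γ : ℝ := 2 * α * Cs + β * (2 * M ^ 2 + 16 * C4) with hγ
  have γ0 : 0 < γ := by positivity
  refine ⟨Cs * (1 + γ), δ, by nlinarith, hδ, ?_⟩
  intro R η A E m hR hη hη' hm hE hA hAE
  have hR0 : 0 < R := by linarith
  have hb : 0 < 4 * R := by linarith
  have B := hB R η (by linarith) hη'
  have hsm : Sm m := hm.smooth
  have hu : Sm (df m (bg σ R)) := hsm.df B.sm
  have hy := B.sm.yb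
  have k1 : En 2 (4 * R) (yb (bg σ R) 0) (df m (bg σ R) 0) + M / R ^ 3 + M / R ^ 2 ≤ A := by
    have a1 := En2_le_cut (B := R / 2) hb.le (by linarith) (hy.slice 0).continuous (hu.slice 0)
    have a2 : 1 / (R / 2) * En 3 (4 * R) (yb (bg σ R) 0) (df m (bg σ R) 0) ≤ 2 * E / R := by
      calc _ ≤ 1 / (R / 2) * E := by gcongr
        _ = _ := by field_simp
    have a3 : M / R ^ 3 ≤ M / R ^ 2 :=
      div_le_div_of_nonneg_left (by linarith) (by positivity)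
        (pow_le_pow_right₀ (by linarith) (by norm_num))
    have a4 : 2 * M / R ^ 2 = M / R ^ 2 + M / R ^ 2 := by ring
    change _ ≤ En 2 (4 * R) (yb (bg σ R) 0) (xc σ R m 0) + _ at a1
    linarith
  have r2 : 0 ≤ M / R ^ 3 := by positivity
  have r3 : 0 ≤ M / R ^ 2 := by positivity
  have n2 := En_nonneg 2 hb.le (yb (bg σ R) 0) (df m (bg σ R) 0)
  have n3 := En_nonneg 3 hb.le (yb (bg σ R) 0) (df m (bg σ R) 0)
  have hA0 : 0 ≤ A := by linarith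
  have hE0 : 0 ≤ E := by linarith
  have st := hs (4 * R) η _ _ (bg σ R) m hb hη (by linarith) r2 r3 B hm (by linarith)
  have cW : ∀ p, Continuous fun s => Dn p (4 * R) (Wf (yb (bg σ R) s) (df m (bg σ R) s)) :=
    fun p => (hy.Wf hu).cont_Dn p _
  have iW : ∀ p t, 0 ≤ t →
      0 ≤ ∫ s in (0 : ℝ)..t, Dn p (4 * R) (Wf (yb (bg σ R) s) (df m (bg σ R) s)) :=
    fun p t ht => intervalIntegral.integral_nonneg ht fun s _ => Dn_nonneg p hb.le _
  have q1 : Cs * (En 2 (4 * R) (yb (bg σ R) 0) (df m (bg σ R) 0) + M / R ^ 3) ≤ Cs * A :=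
    mul_le_mul_of_nonneg_left (by linarith) (by linarith)
  have q2 : Cs * (En 2 (4 * R) (yb (bg σ R) 0) (df m (bg σ R) 0) + M / R ^ 3 + M / R ^ 2) ≤
      Cs * A := mul_le_mul_of_nonneg_left k1 (by linarith)
  set S : ℝ := E + Cs * A with hS
  have hS0 : 0 ≤ S := by positivity
  have e3 : ∀ t ∈ Icc 0 η, En 3 (4 * R) (yb (bg σ R) t) (df m (bg σ R) t) ≤ S := fun t ht => by
    linarith [(st t ht).2.2.2, iW 3 t ht.1]
  have hη1 : η ∈ Icc 0 η := ⟨hη.le, le_rfl⟩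
  have hCA : 0 ≤ Cs * γ * A := by positivity
  refine ⟨by nlinarith [e3 η hη1], ?_⟩
  have pt : ∀ t ∈ Icc 0 η, Dn 2 (4 * R) (frc (yb (bg σ R)) (ab (bg σ R)) (xc σ R m) t) ≤
      α * S * Dn 2 (4 * R) (Wf (yb (bg σ R) t) (df m (bg σ R) t)) +
        β * (C4 * (2 / R)) * Dn 3 (4 * R) (Wf (yb (bg σ R) t) (df m (bg σ R) t)) +
        (α * S * (Cs * A) + β * (2 / R * (M ^ 2 * S))) := by
    intro t ht
    have hw := B.wt t ht
    obtain ⟨e0, e1⟩ := df_end hm B ht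
    have sF := sm_Fnl hw.sy hw.sa (hu.slice t)
    have sC := sm_com (R / 2) (hu.slice t)
    rw [Dn_congr 2 hb.le fun x hx => frc_xc hσ hR0 hη hη' hm ht (Ioo_subset_Icc_self hx)]
    have a0 := Dn_add_le 2 hb.le ((sm_cut (R / 2)).mul sF) ((hw.sy.mul hw.sy).mul sC)
    have a1 : Dn 2 (4 * R) (fun x => cut (R / 2) x *
        Fnl (yb (bg σ R) t) (ab (bg σ R) t) (df m (bg σ R) t) x) ≤ 16 * C10 ^ 2 * Dn 2 (4 * R)
          (Fnl (yb (bg σ R) t) (ab (bg σ R) t) (df m (bg σ R) t)) :=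
      Dn_le_of_pt 2 2 hb.le ((sm_cut _).mul sF) sF fun x hx => by
        have := mul_le_mul_of_nonneg_left (H.f7a.tb (sm_cut (R / 2)) sF hx.1.le
          (h10 _ x (by linarith) hx.1.le)) (pow_nonneg hx.1.le 2)
        linarith
    have a2 : Dn 2 (4 * R) (fun x => yb (bg σ R) t x * yb (bg σ R) t x *
        com (R / 2) (df m (bg σ R) t) x) ≤ 16 * (4 * (M * M)) ^ 2 * Dn 2 (4 * R)
          (com (R / 2) (df m (bg σ R) t)) :=
      Dn_le_of_pt 2 2 hb.le ((hw.sy.mul hw.sy).mul sC) sC fun x hx => by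
        have tb := hw.tby hb hM (Ioo_subset_Icc_self hx)
        have := mul_le_mul_of_nonneg_left (H.f7a.tb (hw.sy.mul hw.sy) sC hx.1.le
          (Tb.mul hw.sy hw.sy hx.1.le tb tb)) (pow_nonneg hx.1.le 2)
        linarith
    have a3 := h2 2 _ _ _ _ (Or.inl rfl) hb hw (hu.slice t) e0 e1 (st t ht).1
    have a4 := (h11 (4 * R) (R / 2) _ (by linarith) (by linarith) (hu.slice t) e0 e1).2
    have a5 := h4 3 _ _ _ (Or.inr rfl) hb hw.sy (sm_Lop 7 (hu.slice t)) hw.y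
    have a6 := hw.En_v hb hM (hu.slice t) 3
    change Dn 2 _ (Fnl _ _ _) ≤ C2 * _ * (Dn 2 _ (Wf (yb (bg σ R) t) (df m (bg σ R) t)) + _) at a3
    change _ ≤ C4 * Dn 3 _ (Wf (yb (bg σ R) t) (df m (bg σ R) t)) at a5
    have d2 := Dn_nonneg 2 hb.le (Wf (yb (bg σ R) t) (df m (bg σ R) t))
    have m2 := En_nonneg 2 hb.le (yb (bg σ R) t) (df m (bg σ R) t)
    have b3 : Dn 2 (4 * R) (Fnl (yb (bg σ R) t) (ab (bg σ R) t) (df m (bg σ R) t)) ≤
        C2 * S * (Dn 2 (4 * R) (Wf (yb (bg σ R) t) (df m (bg σ R) t)) + Cs * A) := by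
      refine a3.trans ?_
      have := (st t ht).2.1.trans q1
      have := e3 t ht
      gcongr
    have b4 : Dn 2 (4 * R) (com (R / 2) (df m (bg σ R) t)) ≤ C11 * (2 / R * (M ^ 2 * S) +
        C4 * (2 / R) * Dn 3 (4 * R) (Wf (yb (bg σ R) t) (df m (bg σ R) t))) := by
      refine a4.trans ?_
      have c1 : C11 / (R / 2) ^ 3 ≤ C11 * (2 / R) := by
        have : C11 * (2 / R) = C11 / (R / 2) := by field_simp
        rw [this]
        refine div_le_div_of_nonneg_left hC11.le (by linarith) ?_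
        exact le_self_pow₀ (by linarith) (by norm_num)
      have c2 : En 3 (4 * R) (vw (4 * R)) (df m (bg σ R) t) ≤ M ^ 2 * S :=
        a6.trans (mul_le_mul_of_nonneg_left (e3 t ht) (by positivity))
      have c3 := mul_le_mul c1 c2 (En_nonneg 3 hb.le _ _) (by positivity)
      have c4 := mul_le_mul_of_nonneg_left a5 (show 0 ≤ C11 / (R / 2) by positivity)
      have c5 : C11 / (R / 2) = C11 * (2 / R) := by field_simp
      rw [c5] at c4 ⊢
      linarith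
    have b5 := mul_le_mul_of_nonneg_left b3 (show 0 ≤ 32 * C10 ^ 2 by positivity)
    have b6 := mul_le_mul_of_nonneg_left b4 (show 0 ≤ 32 * (4 * (M * M)) ^ 2 by positivity)
    rw [hα, hβ]
    linarith
  have c1 : Continuous fun t => α * S * Dn 2 (4 * R) (Wf (yb (bg σ R) t) (df m (bg σ R) t)) :=
    continuous_const.mul (cW 2)
  have c2 : Continuous fun t =>
      β * (C4 * (2 / R)) * Dn 3 (4 * R) (Wf (yb (bg σ R) t) (df m (bg σ R) t)) :=
    continuous_const.mul (cW 3)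
  have fin := integral_mono_Ioo hη.le
    ((hy.frc B.sm.ab (sm_xc hσ.smooth R hsm)).cont_Dn 2 (4 * R))
    ((c1.add c2).add continuous_const) fun t ht => pt t (Ioo_subset_Icc_self ht)
  simp only [Pi.add_apply] at fin
  have c12 : Continuous fun t => α * S * Dn 2 (4 * R) (Wf (yb (bg σ R) t) (df m (bg σ R) t)) +
      β * (C4 * (2 / R)) * Dn 3 (4 * R) (Wf (yb (bg σ R) t) (df m (bg σ R) t)) := c1.add c2
  rw [int_add c12 continuous_const, int_add c1 c2, intervalIntegral.integral_const_mul, intervalIntegral.integral_const_mul,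
    intervalIntegral.integral_const, smul_eq_mul, sub_zero] at fin
  refine fin.trans ?_
  have d2 : (∫ s in (0 : ℝ)..η, Dn 3 (4 * R) (Wf (yb (bg σ R) s) (df m (bg σ R) s))) ≤ 8 * S := by
    linarith [(st η hη1).2.2.2, En_nonneg 3 hb.le (yb (bg σ R) η) (df m (bg σ R) η)]
  exact step_alg α0 β0 hCs hC4 hR0 hA0 hE0 (by linarith) ((st η hη1).2.2.1.trans q1) d2

end Vale.Agent.N264X.P264Z
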