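import Vale.Agent.N264X.E.Nl
import Mathlib.Analysis.Calculus.IteratedDeriv.Lemmas

/-!
# P264: symbol classes for families of functions
-/

open scoped ContDiff Topology
open Set Filter MeasureTheory

noncomputable section

namespace Vale.Agent.N264X.P264Z

open Vale.Agent.P264Z

/-- `|f^(j)(x)| ≤ C (1+x)^(w-j)` for `j ≤ k` -/
def SyP : ℕ → ℤ → (ℝ → ℝ) → ℝ → ℝ → Prop
  | 0, w, f, x, C => |f x| ≤ C * (1 + x) ^ w
  | k + 1, w, f, x, C => |f x| ≤ C * (1 + x) ^ w ∧ SyP k (w - 1) (deriv f) x C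

variable {k : ℕ} {w w' : ℤ} {f g : ℝ → ℝ} {x C D : ℝ}

lemma SyP.zero (h : SyP k w f x C) : |f x| ≤ C * (1 + x) ^ w := by
  cases k with
  | zero => exact h
  | succ k => exact h.1

lemma SyP.pred (h : SyP (k + 1) w f x C) : SyP k w f x C := by
  induction k generalizing w f with
  | zero => exact h.1
  | succ k ih => exact ⟨h.1, ih h.2⟩

lemma SyP.of_le {l : ℕ} (h : SyP k w f x C) (hl : l ≤ k) : SyP l w f x C := by
  induction hl with
  | refl => exact h
  | step _ ih => exact ih h.pred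

lemma SyP.mono (hx : 0 ≤ x) (h : SyP k w f x C) (hCD : C ≤ D) : SyP k w f x D := by
  induction k generalizing w f with
  | zero => exact le_trans h (mul_le_mul_of_nonneg_right hCD (zpow_nonneg (by linarith) _))
  | succ k ih =>
    exact ⟨h.1.trans (mul_le_mul_of_nonneg_right hCD (zpow_nonneg (by linarith) _)), ih h.2⟩

lemma SyP.weight (hx : 0 ≤ x) (hC : 0 ≤ C) (h : SyP k w f x C) (hw : w ≤ w') :
    SyP k w' f x C := by
  induction k generalizing w w' f with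
  | zero =>
    exact le_trans h (mul_le_mul_of_nonneg_left (zpow_le_zpow_right₀ (by linarith) hw) hC)
  | succ k ih =>
    exact ⟨h.1.trans (mul_le_mul_of_nonneg_left (zpow_le_zpow_right₀ (by linarith) hw) hC),
      ih h.2 (by linarith)⟩

lemma SyP.add (hf : ContDiff ℝ ∞ f) (hg : ContDiff ℝ ∞ g) (h : SyP k w f x C)
    (h' : SyP k w g x D) : SyP k w (fun z => f z + g z) x (C + D) := by
  induction k generalizing w f g with
  | zero =>
    show |f x + g x| ≤ _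
    have := abs_add_le (f x) (g x)
    have h1 := h.zero
    have h2 := h'.zero
    linarith
  | succ k ih =>
    refine ⟨?_, ?_⟩
    · have := abs_add_le (f x) (g x)
      have h1 := h.zero
      have h2 := h'.zero
      linarith
    · rw [deriv_add' hf hg]
      exact ih (sm_deriv hf) (sm_deriv hg) h.2 h'.2

lemma SyP.cmul (c : ℝ) (h : SyP k w f x C) : SyP k w (fun z => c * f z) x (|c| * C) := by
  induction k generalizing w f with
  | zero =>
    show |c * f x| ≤ _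
    rw [abs_mul, mul_assoc]
    exact mul_le_mul_of_nonneg_left h (abs_nonneg c)
  | succ k ih =>
    refine ⟨?_, ?_⟩
    · rw [abs_mul, mul_assoc]
      exact mul_le_mul_of_nonneg_left h.1 (abs_nonneg c)
    · rw [deriv_cmul']
      exact ih h.2

lemma SyP.mul (hx : 0 ≤ x) (hC : 0 ≤ C) (hD : 0 ≤ D) (hf : ContDiff ℝ ∞ f) (hg : ContDiff ℝ ∞ g)
    (h : SyP k w f x C) (h' : SyP k w' g x D) :
    SyP k (w + w') (fun z => f z * g z) x (2 ^ k * (C * D)) := by
  have h1x : (0 : ℝ) < 1 + x := by linarith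
  have key : ∀ {w w' : ℤ} {f g : ℝ → ℝ}, |f x| ≤ C * (1 + x) ^ w → |g x| ≤ D * (1 + x) ^ w' →
      |f x * g x| ≤ C * D * (1 + x) ^ (w + w') := by
    intro w w' f g h h'
    rw [abs_mul, zpow_add₀ h1x.ne']
    calc _ ≤ C * (1 + x) ^ w * (D * (1 + x) ^ w') :=
          mul_le_mul h h' (abs_nonneg _) (mul_nonneg hC (zpow_nonneg h1x.le _))
      _ = _ := by ring
  induction k generalizing w w' f g with
  | zero =>
    show |f x * g x| ≤ _
    simpa using key h h'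
  | succ k ih =>
    refine ⟨(key h.1 h'.1).trans ?_, ?_⟩
    · have h2 : (1 : ℝ) ≤ 2 ^ (k + 1) := one_le_pow₀ (by norm_num)
      have h3 : 0 ≤ C * D * (1 + x) ^ (w + w') :=
        mul_nonneg (mul_nonneg hC hD) (zpow_nonneg h1x.le _)
      nlinarith
    · rw [deriv_mul' hf hg]
      have a := ih (sm_deriv hf) hg h.2 h'.pred
      have b := ih hf (sm_deriv hg) h.pred h'.2
      have e1 : w - 1 + w' = w + w' - 1 := by ring
      have e2 : w + (w' - 1) = w + w' - 1 := by ring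
      rw [e1] at a
      rw [e2] at b
      have := SyP.add ((sm_deriv hf).mul hg) (hf.mul (sm_deriv hg)) a b
      refine this.mono hx (le_of_eq ?_)
      ring

lemma SyP.of_zero (hx : 0 ≤ x) (hC : 0 ≤ C) (h : f =ᶠ[𝓝 x] fun _ => 0) : SyP k w f x C := by
  induction k generalizing w f with
  | zero =>
    show |f x| ≤ _
    rw [h.eq_of_nhds, abs_zero]
    exact mul_nonneg hC (zpow_nonneg (by linarith) _)
  | succ k ih =>
    refine ⟨?_, ih ?_⟩
    · rw [h.eq_of_nhds, abs_zero]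
      exact mul_nonneg hC (zpow_nonneg (by linarith) _)
    · simpa using h.deriv

lemma SyP.const (hx : 0 ≤ x) (c : ℝ) : SyP k 0 (fun _ => c) x |c| := by
  cases k with
  | zero => show |c| ≤ _; simp
  | succ k =>
    refine ⟨by simp, SyP.of_zero hx (abs_nonneg c) ?_⟩
    simp

lemma SyP.id (hx : 0 ≤ x) : SyP k 1 (fun z => z) x 1 := by
  have h0 : |x| ≤ 1 * (1 + x) ^ (1 : ℤ) := by rw [abs_of_nonneg hx]; simp
  cases k with
  | zero => exact h0
  | succ k =>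
    refine ⟨h0, ?_⟩
    have e1 : deriv (fun z : ℝ => z) = fun _ => 1 := by funext z; simp
    rw [e1]
    simpa using SyP.const (k := k) hx 1

lemma SyP.congr (h : SyP k w f x C) (e : f =ᶠ[𝓝 x] g) : SyP k w g x C := by
  induction k generalizing w f g with
  | zero => show |g x| ≤ _; rw [← e.eq_of_nhds]; exact h
  | succ k ih => exact ⟨by rw [← e.eq_of_nhds]; exact h.1, ih h.2 e.deriv⟩

lemma SyP.of_iter (h : ∀ j ≤ k, |iteratedDeriv j f x| ≤ C * (1 + x) ^ (w - j)) :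
    SyP k w f x C := by
  induction k generalizing w f with
  | zero =>
    show |f x| ≤ _
    simpa using h 0 le_rfl
  | succ k ih =>
    refine ⟨by simpa using h 0 (Nat.zero_le _), ih fun j hj => ?_⟩
    have := h (j + 1) (by omega)
    rw [iteratedDeriv_succ'] at this
    have e : w - ((j + 1 : ℕ) : ℤ) = w - 1 - j := by push_cast; ring
    rwa [e] at this

/-- rescaling by a factor in `[1,2]` -/
lemma SyP.scale {s : ℝ} (hx : 0 ≤ x) (hC : 0 ≤ C) (hs1 : 1 ≤ s) (hs2 : s ≤ 2) (hw : w ≤ 0)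
    (h : SyP k w f (s * x) C) : SyP k w (fun z => f (s * z)) x (2 ^ k * C) := by
  have key : ∀ {w : ℤ}, w ≤ 0 → (1 + s * x) ^ w ≤ (1 + x) ^ w := by
    intro w hw
    obtain ⟨n, rfl⟩ := Int.exists_eq_neg_ofNat hw
    rw [zpow_neg, zpow_neg, zpow_natCast, zpow_natCast]
    exact inv_anti₀ (by positivity) (pow_le_pow_left₀ (by linarith) (by nlinarith) n)
  induction k generalizing w f with
  | zero =>
    show |f (s * x)| ≤ _
    simpa using le_trans h (mul_le_mul_of_nonneg_left (key hw) hC)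
  | succ k ih =>
    refine ⟨(h.1.trans (mul_le_mul_of_nonneg_left (key hw) hC)).trans ?_, ?_⟩
    · have h2 : (1 : ℝ) ≤ 2 ^ (k + 1) := one_le_pow₀ (by norm_num)
      have h3 : 0 ≤ C * (1 + x) ^ w := mul_nonneg hC (zpow_nonneg (by linarith) _)
      nlinarith
    · rw [deriv_scale]
      refine ((ih (by linarith) h.2).cmul s).mono hx ?_
      rw [abs_of_nonneg (by linarith)]
      have : 0 ≤ 2 ^ k * C := by positivity
      nlinarith [pow_succ (2 : ℝ) k]

lemma SyP.tb (hx : 0 ≤ x) (h : SyP 2 w f x C) : Tb f x (C * (1 + x) ^ w) := by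
  have h1x : (0 : ℝ) < 1 + x := by linarith
  have hp := zpow_pos h1x w
  obtain ⟨h0, h1, h2⟩ := h
  refine ⟨h0, ?_, ?_⟩
  · rw [zpow_sub_one₀ h1x.ne'] at h1
    calc x * |deriv f x| ≤ (1 + x) * (C * ((1 + x) ^ w * (1 + x)⁻¹)) :=
          mul_le_mul (by linarith) h1 (abs_nonneg _) h1x.le
      _ = _ := by field_simp
  · change |deriv (deriv f) x| ≤ _ at h2
    rw [zpow_sub_one₀ h1x.ne', zpow_sub_one₀ h1x.ne'] at h2
    calc x ^ 2 * |deriv (deriv f) x| ≤
          (1 + x) ^ 2 * (C * ((1 + x) ^ w * (1 + x)⁻¹ * (1 + x)⁻¹)) :=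
          mul_le_mul (pow_le_pow_left₀ hx (by linarith) 2) h2 (abs_nonneg _) (by positivity)
      _ = _ := by field_simp

lemma Tb.dn_le {A : ℝ} (hx : 0 ≤ x) (h : Tb f x A) : dn f x ≤ 3 * A ^ 2 := by
  obtain ⟨h0, h1, h2⟩ := h
  have a0 := pow_le_pow_left₀ (abs_nonneg _) h0 2
  have a1 := pow_le_pow_left₀ (mul_nonneg hx (abs_nonneg _)) h1 2
  have a2 := pow_le_pow_left₀ (mul_nonneg (sq_nonneg x) (abs_nonneg _)) h2 2
  rw [mul_pow, sq_abs] at a1 a2
  rw [sq_abs] at a0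
  unfold dn
  nlinarith

/-! ### families -/

/-- uniform symbol bound for a family of functions at a family of points -/
def Sy {ι : Type*} (k : ℕ) (w : ℤ) (F : ι → ℝ → ℝ) (X : ι → ℝ) : Prop :=
  ∃ C : ℝ, 0 ≤ C ∧ ∀ i, SyP k w (F i) (X i) C

section
variable {ι : Type*} {F G : ι → ℝ → ℝ} {X : ι → ℝ}

lemma Sy.add (hF : ∀ i, ContDiff ℝ ∞ (F i)) (hG : ∀ i, ContDiff ℝ ∞ (G i)) (h : Sy k w F X)
    (h' : Sy k w G X) : Sy k w (fun i z => F i z + G i z) X := by
  obtain ⟨C, hC, h⟩ := h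
  obtain ⟨D, hD, h'⟩ := h'
  exact ⟨C + D, by positivity, fun i => (h i).add (hF i) (hG i) (h' i)⟩

lemma Sy.cmul (c : ℝ) (h : Sy k w F X) : Sy k w (fun i z => c * F i z) X := by
  obtain ⟨C, hC, h⟩ := h
  exact ⟨|c| * C, by positivity, fun i => (h i).cmul c⟩

lemma Sy.cmul' (hX : ∀ i, 0 ≤ X i) {c : ι → ℝ} {K : ℝ} (hc : ∀ i, |c i| ≤ K) (hK : 0 ≤ K)
    (h : Sy k w F X) : Sy k w (fun i z => c i * F i z) X := by
  obtain ⟨C, hC, h⟩ := h
  exact ⟨K * C, by positivity, fun i => ((h i).cmul (c i)).mono (hX i)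
    (mul_le_mul_of_nonneg_right (hc i) hC)⟩

lemma Sy.sub (hF : ∀ i, ContDiff ℝ ∞ (F i)) (hG : ∀ i, ContDiff ℝ ∞ (G i)) (h : Sy k w F X)
    (h' : Sy k w G X) : Sy k w (fun i z => F i z - G i z) X := by
  have := h.add hF (fun i => contDiff_const.mul (hG i)) (h'.cmul (-1))
  simpa [sub_eq_add_neg] using this

lemma Sy.mul (hX : ∀ i, 0 ≤ X i) (hF : ∀ i, ContDiff ℝ ∞ (F i)) (hG : ∀ i, ContDiff ℝ ∞ (G i))
    (h : Sy k w F X) (h' : Sy k w' G X) : Sy k (w + w') (fun i z => F i z * G i z) X := by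
  obtain ⟨C, hC, h⟩ := h
  obtain ⟨D, hD, h'⟩ := h'
  exact ⟨2 ^ k * (C * D), by positivity, fun i => (h i).mul (hX i) hC hD (hF i) (hG i) (h' i)⟩

lemma Sy.deriv (h : Sy (k + 1) w F X) : Sy k (w - 1) (fun i => deriv (F i)) X := by
  obtain ⟨C, hC, h⟩ := h
  exact ⟨C, hC, fun i => (h i).2⟩

lemma Sy.of_le {l : ℕ} (h : Sy k w F X) (hl : l ≤ k) : Sy l w F X := by
  obtain ⟨C, hC, h⟩ := h
  exact ⟨C, hC, fun i => (h i).of_le hl⟩

lemma Sy.weight (hX : ∀ i, 0 ≤ X i) (h : Sy k w F X) (hw : w ≤ w') : Sy k w' F X := by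
  obtain ⟨C, hC, h⟩ := h
  exact ⟨C, hC, fun i => (h i).weight (hX i) hC hw⟩

lemma Sy.const (hX : ∀ i, 0 ≤ X i) (c : ℝ) : Sy k 0 (fun _ _ => c) X :=
  ⟨|c|, abs_nonneg c, fun i => SyP.const (hX i) c⟩

lemma Sy.id (hX : ∀ i, 0 ≤ X i) : Sy k 1 (fun _ z => z) X :=
  ⟨1, zero_le_one, fun i => SyP.id (hX i)⟩

lemma Sy.xmul (hX : ∀ i, 0 ≤ X i) (hF : ∀ i, ContDiff ℝ ∞ (F i)) (h : Sy k w F X) :
    Sy k (w + 1) (fun i z => z * F i z) X := by
  rw [add_comm]
  exact (Sy.id hX).mul hX (fun _ => contDiff_id) hF h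

lemma Sy.Mop (n : ℕ) (hX : ∀ i, 0 ≤ X i) (hF : ∀ i, ContDiff ℝ ∞ (F i)) (h : Sy (k + 2) w F X) :
    Sy k w (fun i => Mop n (F i)) X := by
  have s1 : ∀ i, ContDiff ℝ ∞ (_root_.deriv (F i)) := fun i => sm_deriv (hF i)
  have s2 : ∀ i, ContDiff ℝ ∞ (_root_.deriv (_root_.deriv (F i))) := fun i => sm_deriv (s1 i)
  have a2 := (h.deriv.deriv.xmul hX s2).xmul hX fun i => contDiff_id.mul (s2 i)
  have a1 := ((h.deriv.of_le (Nat.le_succ k)).xmul hX s1).cmul (2 * ((n : ℝ) + 1))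
  have a0 := (h.of_le (Nat.le_add_right k 2)).cmul ((n : ℝ) * ((n : ℝ) + 1))
  have e2 : w - 1 - 1 + 1 + 1 = w := by ring
  have e1 : w - 1 + 1 = w := by ring
  rw [e2] at a2
  rw [e1] at a1
  have t2 : ∀ i, ContDiff ℝ ∞ fun z => z * (z * _root_.deriv (_root_.deriv (F i)) z) :=
    fun i => contDiff_id.mul (contDiff_id.mul (s2 i))
  have t1 : ∀ i, ContDiff ℝ ∞ fun z => 2 * ((n : ℝ) + 1) * (z * _root_.deriv (F i) z) :=
    fun i => contDiff_const.mul (contDiff_id.mul (s1 i))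
  have := (a2.add t2 t1 a1).add (fun i => (t2 i).add (t1 i))
    (fun i => contDiff_const.mul (hF i)) a0
  have e : (fun i => P264Z.Mop n (F i)) = fun i z =>
      z * (z * _root_.deriv (_root_.deriv (F i)) z) +
        2 * ((n : ℝ) + 1) * (z * _root_.deriv (F i) z) + (n : ℝ) * ((n : ℝ) + 1) * F i z := by
    funext i z
    unfold P264Z.Mop
    ring
  rw [e]
  exact this

lemma Sy.Lop (n : ℕ) (hX : ∀ i, 0 ≤ X i) (hF : ∀ i, ContDiff ℝ ∞ (F i)) (h : Sy (k + 4) w F X) :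
    Sy k (w - 2) (fun i => Lop n (F i)) X := by
  have := (Sy.Mop (k := k + 2) n hX hF h).deriv.deriv
  have e : w - 1 - 1 = w - 2 := by ring
  rwa [e] at this

lemma Sy.tb (hX : ∀ i, 0 ≤ X i) (h : Sy 2 w F X) :
    ∃ C : ℝ, 0 ≤ C ∧ ∀ i, Tb (F i) (X i) (C * (1 + X i) ^ w) := by
  obtain ⟨C, hC, h⟩ := h
  exact ⟨C, hC, fun i => (h i).tb (hX i)⟩

end

end Vale.Agent.N264X.P264Z
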